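import Vale.Agent.P014T.Dc.Fb
import Vale.Agent.P014T.Sg.Ff

/-!
# P014T, block DISC: the values of the Siegel units on the Tate disc
-/

set_option linter.all false

noncomputable section

open PowerSeries LaurentSeries Filter Topology Vale.Agent.P022K.FI Vale.Agent.P022K.QT Finset
open P027M.K (Val exists_val)
open scoped MatrixGroups

namespace Vale.Agent.P014T.Dc

open Vale.Agent.P022 Vale.Agent.P027M.M Vale.Agent.P019P Cu Sg CongruenceSubgroup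

variable {C : Type} [NontriviallyNormedField C] [IsUltrametricDist C] {u u' t : C} {a N K c : ℕ}

/-- the finite products -/
def pn (u : C) (a N K : ℕ) (t : C) : C := ∏ n ∈ range K, (1 - u * t ^ (a + n * N))

/-- the infinite products -/
def pv (u : C) (a N : ℕ) (t : C) : C := ev t (pf u a N)

theorem ig_pk (hu : ‖u‖ ≤ 1) (a N K : ℕ) : Ig (pk u a N K) :=
  ig_prod fun n _ => ig_one.sub ((ig_C hu).mul (ig_X.pow _))

theorem ig_pf (hu : ‖u‖ ≤ 1) (a N : ℕ) : Ig (pf u a N) := fun k => by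
  rw [pf, coeff_mk]; exact ig_pk hu a N _ k

theorem norm_fac (hu : ‖u‖ ≤ 1) (ht : ‖t‖ < 1) (ha : 0 < a) : ‖u * t ^ a‖ ≤ ‖t‖ := by
  rw [norm_mul, norm_pow]
  exact (mul_le_of_le_one_left (by positivity) hu).trans (pow_le_of_le_one (norm_nonneg _) ht.le ha.ne')

theorem mul_near {x y : C} {ε : ℝ} (h1 : ε < 1) (hx : ‖x - 1‖ ≤ ε) (hy : ‖y - 1‖ ≤ ε) :
    ‖x * y - 1‖ ≤ ε := by
  have : ‖x‖ = 1 := by
    rw [← sub_add_cancel x 1, norm_add_of_lt, norm_one]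
    rw [norm_one]; exact hx.trans_lt h1
  rw [show x * y - 1 = x * (y - 1) + (x - 1) by ring]
  exact (IsUltrametricDist.norm_add_le_max _ _).trans (max_le (by rwa [norm_mul, this, one_mul]) hx)

theorem norm_near {x : C} (hx : ‖x - 1‖ < 1) : ‖x‖ = 1 := by
  rw [← sub_add_cancel x 1, norm_add_of_lt, norm_one]
  rwa [norm_one]

theorem pn_succ (u : C) (a N K : ℕ) (t : C) :
    pn u a N (K + 1) t = (1 - u * t ^ a) * pn u (a + N) N K t := by
  rw [pn, prod_range_succ', mul_comm, pn, zero_mul, add_zero]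
  exact congrArg _ (prod_congr rfl fun n _ => by rw [add_mul, one_mul, add_assoc, add_comm N])

theorem pn_near (hu : ‖u‖ ≤ 1) (ht : ‖t‖ < 1) (ha : 0 < a) (N K : ℕ) : ‖pn u a N K t - 1‖ ≤ ‖t‖ :=
  prod_induction _ (fun x => ‖x - 1‖ ≤ ‖t‖) (fun _ _ => mul_near ht) (by simp) fun n _ => by
    rw [sub_sub_cancel_left, norm_neg]; exact norm_fac hu ht (by omega)

variable [CompleteSpace C]

theorem ev_pk (u : C) (a N K : ℕ) (t : C) : ev t (pk u a N K) = pn u a N K t := by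
  have : pk u a N K = ((∏ n ∈ range K, (1 - Polynomial.C u * Polynomial.X ^ (a + n * N)) :
      Polynomial C) : C⟦X⟧) := by
    rw [← Polynomial.coeToPowerSeries.ringHom_apply, map_prod]
    simp [pk]
  rw [this, ev_poly, map_prod]
  simp [pn]

theorem pv_sub (hu : ‖u‖ ≤ 1) (ht : ‖t‖ < 1) (hN : 0 < N) (a K : ℕ) :
    ‖pv u a N t - pn u a N K t‖ ≤ ‖t‖ ^ K := by
  rw [pv, ← ev_pk, ← (ig_pf hu a N).ev_sub (ig_pk hu a N K) ht]
  exact ig_tail ((ig_pf hu a N).sub (ig_pk hu a N K)) ht.le (X_pow_dvd_iff.1 (pf_dvd u a hN K))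

theorem pv_lim (hu : ‖u‖ ≤ 1) (ht : ‖t‖ < 1) (hN : 0 < N) (a : ℕ) :
    Tendsto (fun K => pn u a N K t) atTop (𝓝 (pv u a N t)) :=
  tendsto_iff_norm_sub_tendsto_zero.2 (squeeze_zero (fun _ => norm_nonneg _)
    (fun K => by rw [norm_sub_rev]; exact pv_sub hu ht hN a K)
    (tendsto_pow_atTop_nhds_zero_of_lt_one (norm_nonneg _) ht))

theorem pv_step (hu : ‖u‖ ≤ 1) (ht : ‖t‖ < 1) (hN : 0 < N) (a : ℕ) :
    pv u a N t = (1 - u * t ^ a) * pv u (a + N) N t :=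
  tendsto_nhds_unique ((tendsto_add_atTop_iff_nat 1).2 (pv_lim hu ht hN a))
    (((pv_lim hu ht hN (a + N)).const_mul _).congr fun K => (pn_succ u a N K t).symm)

theorem pv_near (hu : ‖u‖ ≤ 1) (ht : ‖t‖ < 1) (hN : 0 < N) (ha : 0 < a) : ‖pv u a N t - 1‖ ≤ ‖t‖ :=
  le_of_tendsto' ((pv_lim hu ht hN a).sub_const 1).norm fun K => pn_near hu ht ha N K

theorem norm_pv (hu : ‖u‖ ≤ 1) (ht : ‖t‖ < 1) (hN : 0 < N) (a : ℕ) :
    ‖pv u a N t‖ = ‖1 - u * t ^ a‖ := by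
  rw [pv_step hu ht hN, norm_mul, norm_near ((pv_near hu ht hN (by omega)).trans_lt ht), mul_one]

theorem pv_ne (hu : ‖u‖ ≤ 1) (ht : ‖t‖ < 1) (hN : 0 < N) (h : 0 < a ∨ u ≠ 1) : pv u a N t ≠ 0 := by
  rw [← norm_ne_zero_iff, norm_pv hu ht hN, norm_ne_zero_iff, sub_ne_zero]
  rcases Nat.eq_zero_or_pos a with rfl | e
  · simpa using (h.resolve_left (lt_irrefl _)).symm
  · intro k
    have := norm_fac hu ht e
    rw [← k, norm_one] at this
    exact absurd ht (not_lt.2 this)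

/-- the quotient by a finite product is near to one -/
theorem pv_tail (hu : ‖u‖ ≤ 1) (ht : ‖t‖ < 1) (hN : 0 < N) (a K : ℕ) :
    pv u a N t = pn u a N K t * pv u (a + K * N) N t := by
  induction K with
  | zero => simp [pn]
  | succ K ih =>
    rw [ih, pv_step hu ht hN (a + K * N), pn, pn, prod_range_succ, mul_assoc, add_one_mul,
      add_assoc]

theorem pv_near' (hu : ‖u‖ ≤ 1) (ht : ‖t‖ < 1) (hN : 0 < N) (a : ℕ) :
    ‖pv u a N t - 1‖ ≤ ‖t‖ ^ a := by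
  have h : Ig (pf u a N - 1) := (ig_pf hu a N).sub ig_one
  rw [pv, ← ev_one (C := C) t, ← (ig_pf hu a N).ev_sub ig_one ht]
  refine ig_tail h ht.le fun n hn => ?_
  rw [map_sub, coeff_pf u a hN n.lt_succ_self, sub_eq_zero]
  generalize n.succ = K
  induction K with
  | zero => simp [pk]
  | succ K ih => rw [pk_succ, ih, if_neg (by omega), mul_zero, sub_zero]

theorem pv_map {C' : Type} [NontriviallyNormedField C'] (σ : C →+* C') (hσ : ∀ a, ‖σ a‖ = ‖a‖)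
    (hu : ‖u‖ ≤ 1) (ht : ‖t‖ < 1) (a N : ℕ) : pv (σ u) a N (σ t) = σ (pv u a N t) := by
  obtain ⟨r, k1, k2, k3, -⟩ := exists_r ht ht
  rw [pv, pv, ← ev_map σ hσ ((ig_pf hu a N).cv k1 k2) k3, pf_map]

theorem vq_pf (hu : ‖u‖ ≤ 1) (ht : ‖t‖ < 1) (a N : ℕ) : Vq t (am C (pf u a N)) (pv u a N t) :=
  ig_vq (ig_pf hu a N) ht

theorem vq_single (h0 : t ≠ 0) (w : ℤ) (u : C) : Vq t (HahnSeries.single w u) (u * t ^ w) := by
  have := (vq_const t u).mul ((vq_X t).zpow (n := w) (Or.inl h0))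
  rwa [show am C X = HahnSeries.single 1 1 from HahnSeries.ofPowerSeries_X, ← RatFunc.single_zpow,
    LaurentSeries.algebraMap_apply, HahnSeries.C_apply, HahnSeries.single_mul_single, zero_add,
    mul_one] at this

variable (ι : Qb →+* C)

/-- the theta product -/
def tv (N a : ℕ) (β : ℚ) (t : C) : C := pv (ι (E β)) a N t * pv (ι (E (-β))) (N - a) N t

/-- the value of a Siegel unit -/
def sv (c N a : ℕ) (β : ℚ) (t : C) : C :=
  (-1) ^ sx c N a * ι (E (ux c N a * β)) * t ^ wx c N a * tv ι N a β t ^ c ^ 2 /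
    tv ι N (c * a % N) (c * β) t

variable {ι} {β : ℚ}

theorem vq_pq (ht : ‖t‖ < 1) (N a : ℕ) (β : ℚ) :
    Vq t (mp ι (am Qb (pq (E β) (E (-β)) a N))) (tv ι N a β t) := by
  rw [mp_am, pq_map, pq, map_mul]
  exact (vq_pf (norm_E ι _).le ht _ _).mul (vq_pf (norm_E ι _).le ht _ _)

theorem tv_ne (ht : ‖t‖ < 1) (h : a < N) (h0 : 0 < a ∨ ¬∃ n : ℤ, β = n) : tv ι N a β t ≠ 0 :=
  mul_ne_zero (pv_ne (norm_E ι _).le ht (by omega) (h0.imp id fun e k =>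
    e (E_eq_one.1 (ι.injective (k.trans (map_one ι).symm)))))
    (pv_ne (norm_E ι _).le ht (by omega) (Or.inl (by omega)))

omit [IsUltrametricDist C] [CompleteSpace C] in
theorem nz_two (h : a < N) (n : Nz c ![a / N, β]) :
    (0 < a ∨ ¬∃ n : ℤ, β = n) ∧ (0 < c * a % N ∨ ¬∃ n : ℤ, c * β = n) := by
  have N0 : (N : ℚ) ≠ 0 := Nat.cast_ne_zero.2 (by omega)
  constructor
  · by_contra k
    rw [not_or, not_not, not_lt, Nat.le_zero] at k
    obtain ⟨rfl, m, rfl⟩ := k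
    exact n (Fin.forall_fin_two.2 ⟨⟨0, by simp⟩, c * m, by simp⟩)
  · by_contra k
    rw [not_or, not_not, not_lt, Nat.le_zero] at k
    obtain ⟨m, e⟩ := Nat.dvd_of_mod_eq_zero k.1
    refine n (Fin.forall_fin_two.2 ⟨⟨m, ?_⟩, k.2⟩)
    have : (c : ℚ) * a = N * m := by exact_mod_cast e
    simp only [Matrix.cons_val_zero]
    rw [← mul_div_assoc, this, mul_div_cancel_left₀ _ N0, Int.cast_natCast]

theorem sv_ne (h0 : t ≠ 0) (ht : ‖t‖ < 1) (h : a < N) (n : Nz c ![a / N, β]) :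
    sv ι c N a β t ≠ 0 :=
  div_ne_zero (mul_ne_zero (mul_ne_zero (mul_ne_zero (zpow_ne_zero _ (by simp))
    ((_root_.map_ne_zero ι).2 (E_ne _))) (zpow_ne_zero _ h0)) (pow_ne_zero _ (tv_ne ht h (nz_two h n).1)))
    (tv_ne ht (Nat.mod_lt _ (by omega)) (nz_two h n).2)

/-- **the value of a Siegel unit** -/
theorem vf_sF (hc : c ^ 2 % 24 = 1) (h : a < N) (n : Nz c ![a / N, β]) (h0 : t ≠ 0) (ht : ‖t‖ < 1) :
    Vf ι N t (sF c ![a / N, β]) (sv ι c N a β t) := by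
  refine ⟨_, ex_sF hc h β n, ?_⟩
  rw [xs, map_div₀, map_mul, map_pow, mp_single, map_mul, map_zpow₀, map_neg, map_one]
  exact ((vq_single h0 _ _).mul ((vq_pq ht N a β).pow _)).div (vq_pq ht N _ _)
    (tv_ne ht (Nat.mod_lt _ (by omega)) (nz_two h n).2)

theorem tv_map {C' : Type} [NontriviallyNormedField C'] {ι' : Qb →+* C'} (σ : C →+* C')
    (hσ : ∀ a, ‖σ a‖ = ‖a‖) {β' : ℚ} (h : σ (ι (E β)) = ι' (E β'))
    (h' : σ (ι (E (-β))) = ι' (E (-β'))) (ht : ‖t‖ < 1) (N a : ℕ) :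
    tv ι' N a β' (σ t) = σ (tv ι N a β t) := by
  rw [tv, tv, map_mul, ← pv_map σ hσ (norm_E ι _).le ht, ← pv_map σ hσ (norm_E ι _).le ht, h, h']

/-- the value at a place of the fibre -/
theorem At.sF (X : Mdl) (hc : c ^ 2 % 24 = 1) {Γ : Subgroup SL(2, ℤ)} [CFF Qb (L Γ)]
    {P : Plk Qb (L Γ)} {γ : SL(2, ℤ)} (k : At ι N t (eg X γ Γ) P) (h0 : t ≠ 0) (ht : ‖t‖ < 1)
    {v : Fin 2 → ℚ} (n : Nz c v) {z : L Γ} (hz : (z : FF) = sF c v) (h : a < N)
    (e : ∀ i, ∃ m : ℤ, vg v γ i = (![(a : ℚ) / N, β] : Fin 2 → ℚ) i + m) :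
    ∃ y, ι y = sv ι c N a β t ∧ Val P z y := by
  refine k.alg (by omega) ?_
  rw [eg_apply, hz, sF_pg hc X n, sF_congr hc e]
  exact vf_sF hc h ((n.vg γ).congr e) h0 ht

end Vale.Agent.P014T.Dc
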