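import Mathlib

/-!
# P014T, block DISC: Hecke operators on divisors of the Tate disc
-/

set_option linter.all false

noncomputable section

open Polynomial Finsupp
open scoped Classical

namespace Vale.Agent.P014T.Dc

variable {C : Type} [Field C] {l : ℕ} {q r : C} {μ : C →₀ ℤ}

/-- the neighbours of a point -/
def nq (l : ℕ) (q : C) : C →₀ ℤ := single (q ^ l) 1 + ∑ r ∈ nthRootsFinset l q, single r 1

/-- `T_l` on divisors of the disc -/
def TQ (l : ℕ) : Module.End ℤ (C →₀ ℤ) := Finsupp.linearCombination ℤ (nq l)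

theorem TQ_single (l : ℕ) (q : C) (m : ℤ) : TQ l (single q m) = m • nq l q :=
  linearCombination_single _ _ _

theorem nq_apply (hl : 0 < l) (q r : C) :
    nq l q r = (if q ^ l = r then 1 else 0) + if r ^ l = q then 1 else 0 := by
  rw [nq, Finsupp.add_apply, single_apply, finset_sum_apply]
  simp only [single_apply, Finset.sum_ite_eq', mem_nthRootsFinset hl]

theorem TQ_apply (hl : 0 < l) (μ : C →₀ ℤ) (r : C) :
    TQ l μ r = μ (r ^ l) + ∑ q ∈ nthRootsFinset l r, μ q := by
  induction μ using Finsupp.induction_linear with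
  | zero => simp
  | add a b ha hb =>
    simp only [map_add, Finsupp.add_apply, ha, hb, Finset.sum_add_distrib]
    ring
  | single q m =>
    rw [TQ_single, Finsupp.smul_apply, nq_apply hl, single_apply]
    simp only [single_apply, Finset.sum_ite_eq, mem_nthRootsFinset hl, smul_eq_mul, mul_add,
      mul_ite, mul_one, mul_zero]
    rw [add_comm, if_congr eq_comm rfl rfl]

theorem TQ_ne (hl : 0 < l) (h : TQ l μ r ≠ 0) : ∃ q, μ q ≠ 0 ∧ (q ^ l = r ∨ r ^ l = q) := by
  by_contra! k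
  refine h ?_
  rw [TQ_apply hl, Finset.sum_eq_zero fun q hq => ?_, add_zero]
  · by_contra e
    exact (k _ e).2 rfl
  · by_contra e
    exact (k _ e).1 ((mem_nthRootsFinset hl r).1 hq)

/-- the pairing of a divisor with a function -/
def pz {M : Type*} [AddCommGroup M] (φ : C → M) : (C →₀ ℤ) →ₗ[ℤ] M := Finsupp.linearCombination ℤ φ

variable {M : Type*} [AddCommGroup M] (φ : C → M)

theorem pz_apply (μ : C →₀ ℤ) : pz φ μ = μ.sum fun q m => m • φ q := rfl

theorem pz_single (q : C) (m : ℤ) : pz φ (single q m) = m • φ q := linearCombination_single _ _ _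

theorem pz_congr {ψ : C → M} (h : ∀ q, μ q ≠ 0 → φ q = ψ q) : pz φ μ = pz ψ μ :=
  (pz_apply φ μ).trans (Finset.sum_congr rfl fun q hq => congrArg (μ q • ·) (h q (mem_support_iff.1 hq)))

theorem pz_TQ (l : ℕ) (μ : C →₀ ℤ) :
    pz φ (TQ l μ) = pz (fun q => φ (q ^ l) + ∑ r ∈ nthRootsFinset l q, φ r) μ := by
  induction μ using Finsupp.induction_linear with
  | zero => simp
  | add a b ha hb => simp only [map_add, ha, hb]
  | single q m => simp [TQ_single, pz_single, nq]

/-- the roots of `t ^ l` -/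
theorem sum_roots (hl : 0 < l) {ζ t : C} (h : IsPrimitiveRoot ζ l) (h0 : t ≠ 0) :
    ∑ r ∈ nthRootsFinset l (t ^ l), φ r = ∑ j : Fin l, φ (ζ ^ (j : ℕ) * t) := by
  haveI : NeZero l := ⟨hl.ne'⟩
  refine (Finset.sum_bij (fun (j : Fin l) _ => ζ ^ (j : ℕ) * t) (fun j _ => ?_)
    (fun i _ j _ e => Fin.ext (h.pow_inj i.2 j.2 (mul_right_cancel₀ h0 e))) (fun r hr => ?_)
    fun _ _ => rfl).symm
  · rw [mem_nthRootsFinset hl, mul_pow, pow_right_comm, h.pow_eq_one, one_pow, one_mul]
  · obtain ⟨i, hi, e⟩ := h.eq_pow_of_pow_eq_one (ξ := r / t) (by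
      rw [div_pow, (mem_nthRootsFinset hl _).1 hr, div_self (pow_ne_zero _ h0)])
    exact ⟨⟨i, hi⟩, Finset.mem_univ _, by rw [e, div_mul_cancel₀ _ h0]⟩

/-- polynomials in the Hecke operators -/
abbrev hq {S : ℕ} (P : FreeAlgebra ℤ {l : ℕ // l.Prime ∧ ¬ l ∣ S}) : Module.End ℤ (C →₀ ℤ) :=
  FreeAlgebra.lift ℤ (fun l : {l : ℕ // l.Prime ∧ ¬ l ∣ S} => TQ l.1) P

/-- a set stable under powers and roots carries all Hecke translates -/
theorem hq_supp {S : ℕ} (P : FreeAlgebra ℤ {l : ℕ // l.Prime ∧ ¬ l ∣ S}) {A : C → Prop}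
    (hA : ∀ (l : ℕ) q, l.Prime → ¬ l ∣ S → (A (q ^ l) ↔ A q)) :
    ∀ μ : C →₀ ℤ, (∀ q, μ q ≠ 0 → A q) → ∀ q, hq P μ q ≠ 0 → A q := by
  induction P using FreeAlgebra.induction with
  | grade0 r => exact fun μ h q e => h q fun k => e (by simp [k])
  | grade1 l =>
    intro μ h q e
    rw [hq, FreeAlgebra.lift_ι_apply] at e
    obtain ⟨r, k, rfl | rfl⟩ := TQ_ne l.2.1.pos e
    · exact (hA _ _ l.2.1 l.2.2).2 (h _ k)
    · exact (hA _ _ l.2.1 l.2.2).1 (h _ k)
  | mul a b ha hb => exact fun μ h q e => ha _ (hb μ h) q (by simpa using e)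
  | add a b ha hb =>
    intro μ h q e
    by_contra k
    exact e (by simp [mt (ha μ h q) k |> not_not.1, mt (hb μ h q) k |> not_not.1])

/-- **adjunction**: commuting operators `T l` on a space of functions -/
theorem pz_hq {S : ℕ} {V : Type*} [AddCommGroup V] (T : {l : ℕ // l.Prime ∧ ¬ l ∣ S} → Module.End ℤ V)
    (c : ∀ a b, Commute (T a) (T b)) (Λ : V →+ C → M) {A : C → Prop}
    (hA : ∀ (l : ℕ) q, l.Prime → ¬ l ∣ S → (A (q ^ l) ↔ A q))
    (h : ∀ l v q, A q → Λ (T l v) q = Λ v (q ^ l.1) + ∑ r ∈ nthRootsFinset l.1 q, Λ v r)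
    (P : FreeAlgebra ℤ {l : ℕ // l.Prime ∧ ¬ l ∣ S}) :
    ∀ μ v, (∀ q, μ q ≠ 0 → A q) → pz (Λ v) (hq P μ) = pz (Λ (FreeAlgebra.lift ℤ T P v)) μ := by
  have c1 (a) (Q : FreeAlgebra ℤ _) : Commute (T a) (FreeAlgebra.lift ℤ T Q) := by
    induction Q using FreeAlgebra.induction with
    | grade0 r => rw [AlgHom.commutes]; exact (Algebra.commute_algebraMap_right _ _)
    | grade1 l => rw [FreeAlgebra.lift_ι_apply]; exact c _ _
    | mul a b ha hb => rw [map_mul]; exact ha.mul_right hb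
    | add a b ha hb => rw [map_add]; exact ha.add_right hb
  have c2 (P Q : FreeAlgebra ℤ _) : Commute (FreeAlgebra.lift ℤ T P) (FreeAlgebra.lift ℤ T Q) := by
    induction P using FreeAlgebra.induction with
    | grade0 r => rw [AlgHom.commutes]; exact (Algebra.commute_algebraMap_left _ _)
    | grade1 l => rw [FreeAlgebra.lift_ι_apply]; exact c1 _ _
    | mul a b ha hb => rw [map_mul]; exact ha.mul_left hb
    | add a b ha hb => rw [map_add]; exact ha.add_left hb
  induction P using FreeAlgebra.induction with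
  | grade0 r =>
    intro μ v _
    simp only [hq, AlgHom.commutes, Module.algebraMap_end_apply, map_zsmul, pz_apply, Pi.smul_apply,
      Finsupp.smul_sum, smul_comm r]
  | grade1 l =>
    intro μ v k
    rw [hq, FreeAlgebra.lift_ι_apply, FreeAlgebra.lift_ι_apply, pz_TQ]
    exact pz_congr _ fun q e => (h l v q (k q e)).symm
  | mul a b ha hb =>
    intro μ v k
    rw [map_mul (FreeAlgebra.lift ℤ T), (c2 a b).eq, Module.End.mul_apply, ← hb μ _ k,
      ← ha _ _ (hq_supp b hA μ k), hq, map_mul, Module.End.mul_apply]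
  | add a b ha hb =>
    intro μ v k
    simp only [hq, map_add, LinearMap.add_apply] at ha hb ⊢
    rw [ha μ v k, hb μ v k]
    simp only [pz_apply, Pi.add_apply, smul_add, Finsupp.sum_add]

end Vale.Agent.P014T.Dc
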