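import Vale.Agent.P014T.Dc.Jq

/-!
# P014T, block DISC: values of modular functions at the points of the Tate disc

`Vf ι N t f c`: the modular function `f` has an expansion in `t = e(τ / N)` with the value `c`
at the point `t`.  `At ι N t e P`: the place `P` of the function field `F` (embedded in `FF` by
`e`) is evaluation at `t`.
-/

set_option linter.all false

noncomputable section

open PowerSeries LaurentSeries Filter Topology Vale.Agent.P022K.FI Vale.Agent.P022K.QT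
open P027M.K (Val exists_val)
open scoped MatrixGroups

namespace Vale.Agent.P014T.Dc

open Vale.Agent.P022 Vale.Agent.P022.H218.L3 Vale.Agent.P022.H231.L3 Vale.Agent.P022.H236.L3
  Vale.Agent.P027M.M Vale.Agent.P019P Cu

variable {N : ℕ} {f g : FF} {x y : Qb⸨X⸩}

theorem ex_inv (hN : 0 < N) (h : Ex N f x) : Ex N f⁻¹ x⁻¹ := by
  rw [Ex, map_inv₀, map_inv₀]
  exact ExM.inv hN.ne' h

theorem ex_zero (N : ℕ) : Ex N 0 0 := by simpa using ex_const N 0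

theorem ex_one (N : ℕ) : Ex N 1 1 := by simpa using ex_const N 1

/-- `f` has the period `N` -/
def Lf (N : ℕ) (f : FF) : Prop := ∃ x, Ex N f x

theorem lf_iff (hN : 0 < N) : Lf N f ↔ act (ModularGroup.T ^ N) (cv f) = cv f :=
  ⟨fun ⟨_, h⟩ => (exp.2.2.2.1 N f _ hN h).2, fun h => by
    obtain ⟨s, h1, -⟩ := exp.2.2.1 N f hN h
    exact (ex_of hN h1).imp fun _ e => e.2⟩

theorem lf_of_mem (hN : 0 < N) {Γ : Subgroup SL(2, ℤ)} (h : ModularGroup.T ^ N ∈ Γ) (hf : f ∈ L Γ) :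
    Lf N f := (lf_iff hN).2 (hf _ h)

theorem T_mem (N : ℕ) : ModularGroup.T ^ N ∈ CongruenceSubgroup.Gamma N := by
  have := CongruenceSubgroup.ModularGroup_T_pow_mem_Gamma N N dvd_rfl
  rwa [Int.natAbs_natCast, zpow_natCast] at this

theorem lf_gamma (hN : 0 < N) {Γ : Subgroup SL(2, ℤ)} (h : CongruenceSubgroup.Gamma N ≤ Γ)
    (hf : f ∈ L Γ) : Lf N f := lf_of_mem hN (h (T_mem N)) hf

theorem Lf.inv (hN : 0 < N) (h : Lf N f) : Lf N f⁻¹ := h.elim fun _ e => ⟨_, ex_inv hN e⟩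

theorem Lf.up (hN : 0 < N) (h : Lf N f) {M : ℕ} (hM : 0 < M) : Lf (N * M) f :=
  h.elim fun _ e => ⟨_, e.up hN hM⟩

theorem Lf.gal (X : Mdl) (hN : 0 < N) (h : Lf N f) (s : GQ) : Lf N (X.gal s f) :=
  h.elim fun _ e => ⟨_, e.gal X hN s⟩

theorem pb_congr (X : Mdl) {A B : M2} (e : A = B) (hA : 0 < A.det) (hB : 0 < B.det) :
    X.pb A hA = X.pb B hB := by subst e; rfl

theorem tri_pos {a d : ℕ} (b : ℤ) (ha : 0 < a) (hd : 0 < d) :
    0 < (!![(a : ℤ), b; 0, (d : ℤ)] : M2).det := by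
  rw [Matrix.det_fin_two_of]; simp; positivity

theorem ex_T (X : Mdl) (hN : 0 < N) (h : Ex N f x) (b : ℤ) :
    Ex N (X.pg (ModularGroup.T ^ b) f) (rs (E (b / N)) (E_ne _) x) := by
  have := h.pb X hN b one_pos one_pos (tri_pos b one_pos one_pos)
  rw [show ex 1 one_pos (rs (E (b / (N * 1 : ℕ))) (E_ne _) x) = rs (E (b / N)) (E_ne _) x by
    ext n
    rw [← one_mul n, ← Nat.cast_one (R := ℤ), coeff_ex]
    simp, mul_one] at this
  rwa [Mdl.pg, pb_congr X (by simpa using ModularGroup.coe_T_zpow b) _ (tri_pos b one_pos one_pos)]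

variable {C : Type} [NontriviallyNormedField C] [IsUltrametricDist C] {ι : Qb →+* C} {t c d : C}

variable (ι) in
/-- `f` has the value `c` at the point `t = e(τ / N)` -/
def Vf (N : ℕ) (t : C) (f : FF) (c : C) : Prop := ∃ x, Ex N f x ∧ Vq t (mp ι x) c

theorem Vf.lf (h : Vf ι N t f c) : Lf N f := h.imp fun _ e => e.1

theorem vf_iff (hN : 0 < N) (h : Ex N f x) : Vf ι N t f c ↔ Vq t (mp ι x) c :=
  ⟨fun ⟨_, h1, h2⟩ => h1.unique hN h ▸ h2, fun e => ⟨x, h, e⟩⟩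

theorem vf_const (N : ℕ) (t : C) (a : Qb) : Vf ι N t (algebraMap Qb FF a) (ι a) :=
  ⟨_, ex_const N a, by rw [mp_C]; exact vq_const t _⟩

theorem vf_one (N : ℕ) (t : C) : Vf ι N t 1 1 := by simpa using vf_const (ι := ι) N t 1

theorem vf_zero (N : ℕ) (t : C) : Vf ι N t 0 0 := by simpa using vf_const (ι := ι) N t 0

theorem Vf.inv (hN : 0 < N) (h : Vf ι N t f c) (hc : c ≠ 0) : Vf ι N t f⁻¹ c⁻¹ := by
  obtain ⟨x, h1, h2⟩ := h
  exact ⟨_, ex_inv hN h1, by rw [map_inv₀]; exact h2.inv hc⟩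

/-- change of the level -/
theorem Vf.up (hN : 0 < N) {M : ℕ} (hM : 0 < M) (h : Vf ι N (t ^ M) f c) : Vf ι (N * M) t f c := by
  obtain ⟨x, h1, h2⟩ := h
  exact ⟨_, h1.up hN hM, by rw [mp_ex]; exact h2.ex hM⟩

/-- upper triangular matrices -/
theorem Vf.pb (X : Mdl) (hN : 0 < N) {a d : ℕ} (b : ℤ) (ha : 0 < a) (hd : 0 < d)
    (hA : 0 < (!![(a : ℤ), b; 0, (d : ℤ)] : M2).det)
    (h : Vf ι N (ι (E (b / (N * d : ℕ))) * t ^ a) f c) : Vf ι (N * d) t (X.pb _ hA f) c := by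
  obtain ⟨x, h1, h2⟩ := h
  exact ⟨_, h1.pb X hN b ha hd hA, by rw [mp_ex, mp_rs]; exact h2.exrs _ ha⟩

theorem Vf.tr (X : Mdl) (hN : 0 < N) (b : ℤ) (h : Vf ι N (ι (E (b / N)) * t) f c) :
    Vf ι N t (X.pg (ModularGroup.T ^ b) f) c := by
  obtain ⟨x, h1, h2⟩ := h
  exact ⟨_, ex_T X hN h1 b, by rw [mp_rs]; exact h2.rs _⟩

variable [CompleteSpace C]

theorem Vf.uniq (hN : 0 < N) (h : Vf ι N t f c) (h' : Vf ι N t f d) : c = d := by
  obtain ⟨x, h1, h2⟩ := h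
  exact h2.uniq ((vf_iff hN h1).1 h')

theorem Vf.add (h : Vf ι N t f c) (h' : Vf ι N t g d) : Vf ι N t (f + g) (c + d) := by
  obtain ⟨x, h1, h2⟩ := h
  obtain ⟨y, h3, h4⟩ := h'
  exact ⟨_, h1.add h3, by rw [map_add]; exact h2.add h4⟩

theorem Vf.mul (h : Vf ι N t f c) (h' : Vf ι N t g d) : Vf ι N t (f * g) (c * d) := by
  obtain ⟨x, h1, h2⟩ := h
  obtain ⟨y, h3, h4⟩ := h'
  exact ⟨_, h1.mul h3, by rw [map_mul]; exact h2.mul h4⟩

theorem Vf.neg (h : Vf ι N t f c) : Vf ι N t (-f) (-c) := by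
  simpa using (vf_const (ι := ι) N t (-1)).mul h

theorem Vf.sub (h : Vf ι N t f c) (h' : Vf ι N t g d) : Vf ι N t (f - g) (c - d) := by
  rw [sub_eq_add_neg, sub_eq_add_neg]; exact h.add h'.neg

theorem Vf.div (hN : 0 < N) (h : Vf ι N t f c) (h' : Vf ι N t g d) (hd : d ≠ 0) :
    Vf ι N t (f / g) (c / d) := by
  rw [div_eq_mul_inv, div_eq_mul_inv]; exact h.mul (h'.inv hN hd)

theorem Vf.pow (h : Vf ι N t f c) (n : ℕ) : Vf ι N t (f ^ n) (c ^ n) := by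
  induction n with
  | zero => rw [pow_zero, pow_zero]; exact vf_one N t
  | succ n ih => rw [pow_succ, pow_succ]; exact ih.mul h

theorem Vf.zpow (hN : 0 < N) (h : Vf ι N t f c) (hc : c ≠ 0) (n : ℤ) :
    Vf ι N t (f ^ n) (c ^ n) := by
  obtain ⟨m, rfl | rfl⟩ := Int.eq_nat_or_neg n
  · simpa using h.pow m
  · simpa using (h.inv hN hc).pow m

theorem vf_prod {κ : Type*} (S : Finset κ) {z : κ → FF} {v : κ → C}
    (h : ∀ i ∈ S, Vf ι N t (z i) (v i)) : Vf ι N t (∏ i ∈ S, z i) (∏ i ∈ S, v i) := by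
  classical
  induction S using Finset.induction_on with
  | empty => simpa using vf_one N t
  | insert a S ha ih =>
    rw [Finset.prod_insert ha, Finset.prod_insert ha]
    exact (h a (Finset.mem_insert_self _ _)).mul (ih fun i hi => h i (Finset.mem_insert_of_mem hi))

theorem vf_sum {κ : Type*} (S : Finset κ) {z : κ → FF} {v : κ → C}
    (h : ∀ i ∈ S, Vf ι N t (z i) (v i)) : Vf ι N t (∑ i ∈ S, z i) (∑ i ∈ S, v i) := by
  classical
  induction S using Finset.induction_on with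
  | empty => simpa using vf_zero N t
  | insert a S ha ih =>
    rw [Finset.sum_insert ha, Finset.sum_insert ha]
    exact (h a (Finset.mem_insert_self _ _)).add (ih fun i hi => h i (Finset.mem_insert_of_mem hi))

theorem Vf.not_inv (hN : 0 < N) (h : Vf ι N t f c) (f0 : f ≠ 0) : ¬Vf ι N t f⁻¹ 0 := fun h' => by
  have := h.mul h'
  rw [mul_inv_cancel₀ f0, mul_zero] at this
  exact one_ne_zero ((vf_one N t).uniq hN this)

theorem vf_sub_iff {a : Qb} : Vf ι N t (f - algebraMap Qb FF a) 0 ↔ Vf ι N t f (ι a) :=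
  ⟨fun h => by simpa using h.add (vf_const N t a), fun h => by simpa using h.sub (vf_const N t a)⟩

/-- the Galois action (`σ` may go to another field) -/
theorem Vf.gal {C' : Type} [NontriviallyNormedField C'] [IsUltrametricDist C'] {ι' : Qb →+* C'}
    (X : Mdl) (hN : 0 < N) {s : GQ} (σ : C →+* C') (h1 : ∀ a, ‖σ a‖ = ‖a‖)
    (h2 : ∀ a, σ (ι a) = ι' (s a)) (h : Vf ι N t f c) : Vf ι' N (σ t) (X.gal s f) (σ c) := by
  obtain ⟨x, h3, h4⟩ := h
  refine ⟨_, h3.gal X hN s, ?_⟩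
  have : mp ι' (mp (s : Qb →+* Qb) x) = mp σ (mp ι x) := by
    ext n
    exact (h2 _).symm
  rw [this]
  exact h4.mp σ h1

theorem vf_j (hN : 0 < N) (h0 : t ≠ 0) (h1 : ‖t‖ < 1) : Vf ι N t jF (jv (t ^ N)) := by
  have : Vf ι 1 (t ^ N) jF (jv (t ^ N)) := ⟨_, ex_jF, by
    rw [mp_jS]
    exact vq_jS (pow_ne_zero _ h0) (by rw [norm_pow]; exact pow_lt_one₀ (norm_nonneg _) h1 hN.ne')⟩
  simpa using this.up one_pos hN

variable [IsAlgClosed C]

theorem ex_mq (hN : 0 < N) (h : Ex N f x) (h1 : ‖t‖ < 1) : Mq t (mp ι x) := by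
  by_cases f0 : f = 0
  · rw [h.unique hN (f0 ▸ ex_zero N), map_zero]
    exact (vq_zero t).mq
  · obtain ⟨c, D, e⟩ := hf_iff.1 (h.hf ι hN f0)
    exact fac_mq e h1

/-- **value or pole** -/
theorem Lf.dich (hN : 0 < N) (h : Lf N f) (h1 : ‖t‖ < 1) :
    (∃ c, Vf ι N t f c) ∨ Vf ι N t f⁻¹ 0 := by
  obtain ⟨x, h⟩ := h
  exact (ex_mq hN h h1).dich.imp (fun ⟨c, e⟩ => ⟨c, x, h, e⟩) fun e =>
    ⟨_, ex_inv hN h, by rwa [map_inv₀]⟩

theorem vf_up (hN : 0 < N) {M : ℕ} (hM : 0 < M) (h : Lf N f) (h1 : ‖t‖ < 1) :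
    Vf ι (N * M) t f c ↔ Vf ι N (t ^ M) f c := by
  obtain ⟨x, h⟩ := h
  rw [vf_iff hN h, vf_iff (Nat.mul_pos hN hM) (h.up hN hM), mp_ex, vq_ex hM (ex_mq hN h (by
    rw [norm_pow]; exact pow_lt_one₀ (norm_nonneg _) h1 hM.ne'))]

theorem vf_pb (X : Mdl) (hN : 0 < N) {a d : ℕ} (b : ℤ) (ha : 0 < a) (hd : 0 < d)
    (hA : 0 < (!![(a : ℤ), b; 0, (d : ℤ)] : M2).det) (h : Lf N f) (h1 : ‖t‖ < 1) :
    Vf ι (N * d) t (X.pb _ hA f) c ↔ Vf ι N (ι (E (b / (N * d : ℕ))) * t ^ a) f c := by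
  obtain ⟨x, h⟩ := h
  rw [vf_iff hN h, vf_iff (Nat.mul_pos hN hd) (h.pb X hN b ha hd hA), mp_ex, mp_rs,
    vq_exrs _ ha (ex_mq hN h (by
      rw [norm_mul, norm_E, one_mul, norm_pow]; exact pow_lt_one₀ (norm_nonneg _) h1 ha.ne'))]

theorem vf_tr (X : Mdl) (hN : 0 < N) (b : ℤ) (h : Lf N f) (h1 : ‖t‖ < 1) :
    Vf ι N t (X.pg (ModularGroup.T ^ b) f) c ↔ Vf ι N (ι (E (b / N)) * t) f c := by
  obtain ⟨x, h⟩ := h
  rw [vf_iff hN h, vf_iff hN (ex_T X hN h b), mp_rs,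
    vq_rs _ (ex_mq hN h (by rwa [norm_mul, norm_E, one_mul]))]

theorem vf_gal {C' : Type} [NontriviallyNormedField C'] [IsUltrametricDist C'] [CompleteSpace C']
    {ι' : Qb →+* C'} (X : Mdl) (hN : 0 < N) {s : GQ} (σ : C →+* C') (h1 : ∀ a, ‖σ a‖ = ‖a‖)
    (h2 : ∀ a, σ (ι a) = ι' (s a)) (h : Lf N f) (ht : ‖t‖ < 1) :
    Vf ι' N (σ t) (X.gal s f) (σ c) ↔ Vf ι N t f c := by
  obtain ⟨x, h⟩ := h
  have : mp ι' (mp (s : Qb →+* Qb) x) = mp σ (mp ι x) := by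
    ext n
    exact (h2 _).symm
  rw [vf_iff hN h, vf_iff hN (h.gal X hN s), this, vq_mp σ h1 (ex_mq hN h ht)]

/-! ## places -/

section pl

variable {F F' : Type*} [Field F] [Field F'] {e : F →+* FF} {e' : F' →+* FF} {z : F}

omit [CompleteSpace C] [IsAlgClosed C] in
variable (ι e) in
/-- the expansion as a homomorphism -/
def th (hN : 0 < N) (he : ∀ z, Lf N (e z)) : F →+* C⸨X⸩ := (mp ι).comp
  { toFun := fun z => (he z).choose
    map_one' := (he 1).choose_spec.unique hN (by rw [map_one]; exact ex_one N)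
    map_mul' := fun a b => (he (a * b)).choose_spec.unique hN (by
      rw [map_mul]; exact (he a).choose_spec.mul (he b).choose_spec)
    map_zero' := (he 0).choose_spec.unique hN (by rw [map_zero]; exact ex_zero N)
    map_add' := fun a b => (he (a + b)).choose_spec.unique hN (by
      rw [map_add]; exact (he a).choose_spec.add (he b).choose_spec) }

omit [CompleteSpace C] [IsAlgClosed C] in
theorem th_eq (hN : 0 < N) (he : ∀ z, Lf N (e z)) (h : Ex N (e z) x) : th ι e hN he z = mp ι x :=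
  congrArg (mp ι) ((he z).choose_spec.unique hN h)

omit [CompleteSpace C] [IsAlgClosed C] in
theorem vf_th (hN : 0 < N) (he : ∀ z, Lf N (e z)) : Vf ι N t (e z) c ↔ Vq t (th ι e hN he z) c :=
  vf_iff hN (he z).choose_spec

theorem th_mq (hN : 0 < N) (he : ∀ z, Lf N (e z)) (h1 : ‖t‖ < 1) (z : F) :
    Mq t (th ι e hN he z) := ex_mq hN (he z).choose_spec h1

variable [Algebra Qb F] [CFF Qb F] [Algebra Qb F'] [CFF Qb F'] {P Q : Plk Qb F} {P' : Plk Qb F'}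

variable (ι) in
/-- the place `P` is evaluation at `t = e(τ / N)` -/
def At (N : ℕ) (t : C) (e : F →+* FF) (P : Plk Qb F) : Prop :=
  ∀ z a, Val P z a ↔ Vf ι N t (e z) (ι a)

omit [IsAlgClosed C]

omit [CompleteSpace C] in
theorem lf_of_val (hN : 0 < N) (h : ∀ z a, Val P z a → Vf ι N t (e z) (ι a)) (z : F) :
    Lf N (e z) := by
  rcases P.1.mem_or_inv_mem z with k | k
  · exact (mem_iff_val.1 k).elim fun a k => (h z a k).lf
  · obtain ⟨a, k⟩ := mem_iff_val.1 k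
    have := (h _ a k).lf.inv hN
    rwa [map_inv₀, inv_inv] at this

omit [CompleteSpace C] in
theorem At.lf (hN : 0 < N) (h : At ι N t e P) (z : F) : Lf N (e z) :=
  lf_of_val hN (fun z a => (h z a).1) z

omit [CompleteSpace C] in
theorem at_iff (hN : 0 < N) (he : ∀ z, Lf N (e z)) : At ι N t e P ↔ Pa ι (th ι e hN he) t P :=
  forall₂_congr fun z a => by rw [vf_th hN he]

omit [CompleteSpace C] in
theorem At.pa (hN : 0 < N) (h : At ι N t e P) : Pa ι (th ι e hN (h.lf hN)) t P :=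
  (at_iff hN _).1 h

/-- one implication suffices -/
theorem at_of (hN : 0 < N) (h : ∀ z a, Val P z a → Vf ι N t (e z) (ι a)) : At ι N t e P :=
  (at_iff hN (lf_of_val hN h)).2 (pa_of fun z a k => (vf_th hN _).1 (h z a k))

/-- values are algebraic -/
theorem At.alg (hN : 0 < N) (h : At ι N t e P) (h1 : Vf ι N t (e z) c) :
    ∃ a, ι a = c ∧ Val P z a := (h.pa hN).alg ((vf_th hN _).1 h1)

theorem At.mem (hN : 0 < N) (h : At ι N t e P) : z ∈ P.1 ↔ ∃ c, Vf ι N t (e z) c :=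
  (h.pa hN).mem.trans (exists_congr fun _ => (vf_th hN _).symm)

theorem At.pole (hN : 0 < N) (h : At ι N t e P) (z0 : z ≠ 0) : z ∉ P.1 ↔ Vf ι N t (e z)⁻¹ 0 := by
  rw [← map_inv₀, ← map_zero ι, ← h, val_zero_iff (inv_ne_zero z0), inv_inv]

theorem At.uniq (hN : 0 < N) (h : At ι N t e P) (h' : At ι N t e Q) : P = Q :=
  Subtype.ext (SetLike.ext fun z => (h.mem hN).trans (h'.mem hN).symm)

/-- two places whose values correspond -/
theorem At.rel {C' : Type} [NontriviallyNormedField C'] [IsUltrametricDist C'] [CompleteSpace C']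
    {ι' : Qb →+* C'} {N' : ℕ} {t' : C'} (hN : 0 < N) (hN' : 0 < N') (h : At ι N t e P)
    (h' : At ι' N' t' e' P') (φ : F →+* F') (s : C → C') (s0 : s 0 = 0)
    (k : ∀ z c, Vf ι N t (e z) c → Vf ι' N' t' (e' (φ z)) (s c)) (z : F) :
    φ z ∈ P'.1 ↔ z ∈ P.1 := by
  refine ⟨fun k1 => ?_, fun k1 => ((h.mem hN).1 k1).elim fun c k1 => (h'.mem hN').2 ⟨_, k z c k1⟩⟩
  by_contra k2
  have z0 : z ≠ 0 := fun e => k2 (e ▸ zero_mem _)
  have := (h.pole hN z0).1 k2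
  rw [← map_inv₀] at this
  have := k _ _ this
  rw [map_inv₀, map_inv₀, s0] at this
  exact (h'.pole hN' ((_root_.map_ne_zero φ).2 z0)).2 this k1

omit [CompleteSpace C] in
theorem val_of_mem (φ : F →+* F') (s : Qb → Qb)
    (hs : ∀ a, φ (algebraMap Qb F a) = algebraMap Qb F' (s a)) (h : ∀ z, φ z ∈ P'.1 ↔ z ∈ P.1)
    {a : Qb} : Val P' (φ z) (s a) ↔ Val P z a := by
  rw [Val, Val, ← hs, ← map_sub, ← P027M.K.Val.zero_iff, ← P027M.K.Val.zero_iff]
  by_cases e : z - algebraMap Qb F a = 0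
  · rw [e, map_zero]
    exact iff_of_true (P027M.K.Val.zero_iff.2 (zero_mem _)) (P027M.K.Val.zero_iff.2 (zero_mem _))
  · rw [val_zero_iff e, val_zero_iff ((_root_.map_ne_zero φ).2 e), ← map_inv₀, h]

/-- restriction of a place -/
theorem At.down (hN : 0 < N) (h : At ι N t e' P') (φ : F →+* F')
    (hs : ∀ a, φ (algebraMap Qb F a) = algebraMap Qb F' a) (k : ∀ z, φ z ∈ P'.1 ↔ z ∈ P.1) :
    At ι N t (e'.comp φ) P := fun z a => (val_of_mem φ id hs k).symm.trans (h _ _)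

theorem At.up (hN : 0 < N) {M : ℕ} (hM : 0 < M) (h : At ι N (t ^ M) e P) : At ι (N * M) t e P :=
  at_of (Nat.mul_pos hN hM) fun z a k => ((h z a).1 k).up hN hM

theorem At.pb (X : Mdl) (hN : 0 < N) {a d : ℕ} (b : ℤ) (ha : 0 < a) (hd : 0 < d)
    (hA : 0 < (!![(a : ℤ), b; 0, (d : ℤ)] : M2).det)
    (h : At ι N (ι (E (b / (N * d : ℕ))) * t ^ a) e P) :
    At ι (N * d) t ((X.pb _ hA : FF →+* FF).comp e) P :=
  at_of (Nat.mul_pos hN hd) fun z c k => ((h z c).1 k).pb X hN b ha hd hA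

theorem At.tr (X : Mdl) (hN : 0 < N) (b : ℤ) (h : At ι N (ι (E (b / N)) * t) e P) :
    At ι N t ((X.pg (ModularGroup.T ^ b) : FF →+* FF).comp e) P :=
  at_of hN fun z c k => ((h z c).1 k).tr X hN b

/-- the Galois action on places -/
theorem At.gal (X : Mdl) (hN : 0 < N) {s : GQ} (σ : C →+* C) (h1 : ∀ a, ‖σ a‖ = ‖a‖)
    (h2 : ∀ a, σ (ι a) = ι (s a)) (h : At ι N t e P) (h' : At ι N (σ t) e' P') (φ : F →+* F')
    (k : ∀ z, e' (φ z) = X.gal s (e z)) (z : F) : φ z ∈ P'.1 ↔ z ∈ P.1 :=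
  h.rel hN hN h' φ σ (map_zero σ) (fun z c v => k z ▸ v.gal X hN σ h1 h2) z

/-- the conjugate place -/
theorem At.conj (X : Mdl) (hN : 0 < N) {s : GQ} (σ : C →+* C) (h1 : ∀ a, ‖σ a‖ = ‖a‖)
    (h2 : ∀ a, σ (ι a) = ι (s a)) (h : At ι N t e P) (φ : F ≃+* F')
    (hs : ∀ a, φ (algebraMap Qb F a) = algebraMap Qb F' (s a))
    (k : ∀ z, e' (φ z) = X.gal s (e z)) (hP : ∀ z, φ z ∈ P'.1 ↔ z ∈ P.1) : At ι N (σ t) e' P' :=
  at_of hN fun z a v => by
    obtain ⟨z, rfl⟩ := φ.surjective z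
    obtain ⟨a, rfl⟩ := s.surjective a
    rw [k, ← h2]
    exact ((h z a).1 ((val_of_mem (φ : F →+* F') s hs hP).1 v)).gal X hN σ h1 h2

theorem At.j (hN : 0 < N) (h : At ι N t e P) (h0 : t ≠ 0) (h1 : ‖t‖ < 1) {j : F} (hj : e j = jF) :
    ∃ a, ι a = jv (t ^ N) ∧ Val P j a := h.alg hN (hj ▸ vf_j hN h0 h1)

variable [IsAlgClosed C]

/-- **the place of a point with an algebraic invariant** -/
theorem ex_at (hN : 0 < N) (he : ∀ z, Lf N (e z))
    (hc : ∀ a, e (algebraMap Qb F a) = algebraMap Qb FF a) (h1 : ‖t‖ < 1) {a : Qb}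
    (z0 : z ≠ algebraMap Qb F a) (hz : Vf ι N t (e z) (ι a)) : ∃ P : Plk Qb F, At ι N t e P :=
  (ex_pa (th_mq hN he h1) (fun a => by rw [th_eq hN he (hc a ▸ ex_const N a), mp_C]) z0
    ((vf_th hN he).1 hz)).imp fun _ h => (at_iff hN he).2 h

theorem ex_at_j (hN : 0 < N) (he : ∀ z, Lf N (e z))
    (hc : ∀ a, e (algebraMap Qb F a) = algebraMap Qb FF a) (h0 : t ≠ 0) (h1 : ‖t‖ < 1) {j : F}
    (hj : e j = jF) {a : Qb} (ha : jv (t ^ N) = ι a) :
    ∃ P : Plk Qb F, At ι N t e P ∧ Val P j a := by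
  have k : Vf ι N t (e j) (ι a) := by rw [hj, ← ha]; exact vf_j hN h0 h1
  obtain ⟨P, hP⟩ := ex_at hN he hc h1 (fun e' => jF_ne a (by rw [← hj, e', hc])) k
  exact ⟨P, hP, (hP j a).2 k⟩

theorem at_up (hN : 0 < N) {M : ℕ} (hM : 0 < M) (he : ∀ z, Lf N (e z)) (h1 : ‖t‖ < 1) :
    At ι (N * M) t e P ↔ At ι N (t ^ M) e P :=
  forall₂_congr fun z a => by rw [vf_up hN hM (he z) h1]

theorem at_pb (X : Mdl) (hN : 0 < N) {a d : ℕ} (b : ℤ) (ha : 0 < a) (hd : 0 < d)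
    (hA : 0 < (!![(a : ℤ), b; 0, (d : ℤ)] : M2).det) (he : ∀ z, Lf N (e z)) (h1 : ‖t‖ < 1) :
    At ι (N * d) t ((X.pb _ hA : FF →+* FF).comp e) P ↔
      At ι N (ι (E (b / (N * d : ℕ))) * t ^ a) e P :=
  forall₂_congr fun z c => by rw [← vf_pb X hN b ha hd hA (he z) h1]; rfl

theorem at_tr (X : Mdl) (hN : 0 < N) (b : ℤ) (he : ∀ z, Lf N (e z)) (h1 : ‖t‖ < 1) :
    At ι N t ((X.pg (ModularGroup.T ^ b) : FF →+* FF).comp e) P ↔
      At ι N (ι (E (b / N)) * t) e P :=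
  forall₂_congr fun z c => by rw [← vf_tr X hN b (he z) h1]; rfl

end pl

end Vale.Agent.P014T.Dc
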