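import Vale.Agent.P014T.Dc.Log
import Vale.Agent.P014T.Dc.Ff
import Vale.Agent.P014T.Pu.Ey

/-! # P014T, discs: the logarithm of the modular parametrisation near the cusp -/

set_option linter.all false

open scoped Classical LaurentSeries
open WeierstrassCurve WeierstrassCurve.Affine Filter PowerSeries UpperHalfPlane

noncomputable section

namespace Vale.Agent.P014T.Dc

open P022K.FI P022K.FA P022K.QT P022K.QT.Cu P022 P022.H236.L3 P022.H218.L3 P022.H231.L3 P027M.M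
  P019P P004Z.EF P004Z.EF.Co
open P004H.H666 (crv)
open P004N (RN Pr)

section od

variable {K L : Type} [Field K] [Field L]

/-- a family of points of `y² = x³ + A x + B` through the origin, with the differential `g` -/
structure Od (A B : K) (g : K⟦X⟧) (x y : K⸨X⸩) : Prop where
  eq : y ^ 2 = x ^ 3 + algebraMap K K⸨X⸩ A * x + algebraMap K K⸨X⸩ B
  ord : x.order < 0
  der : dL x = am K g * (2 * y)

theorem mp_dL (σ : K →+* L) (s : K⸨X⸩) : mp σ (dL s) = dL (mp σ s) := by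
  ext k
  simp only [coeff_mp, LaurentSeries.derivative_apply, LaurentSeries.hasseDeriv_coeff, map_zsmul]

theorem order_mp (σ : K →+* L) (s : K⸨X⸩) : (mp σ s).order = s.order := by
  by_cases h : s = 0
  · simp [h]
  refine le_antisymm (HahnSeries.order_le_of_coeff_ne_zero ?_)
    (HahnSeries.order_le_of_coeff_ne_zero fun e => ?_)
  · rw [coeff_mp]
    exact (map_ne_zero σ).2 (HahnSeries.coeff_order_eq_zero.not.2 h)
  · exact HahnSeries.coeff_order_eq_zero.not.2 ((map_ne_zero (mp σ)).2 h)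
      (by rw [coeff_mp, e, map_zero])

theorem od_mp (σ : K →+* L) {A B : K} {g : K⟦X⟧} {x y : K⸨X⸩} :
    Od (σ A) (σ B) (PowerSeries.map σ g) (mp σ x) (mp σ y) ↔ Od A B g x y := by
  have e1 : mp σ (x ^ 3 + algebraMap K K⸨X⸩ A * x + algebraMap K K⸨X⸩ B) =
      mp σ x ^ 3 + algebraMap L L⸨X⸩ (σ A) * mp σ x + algebraMap L L⸨X⸩ (σ B) := by
    simp only [map_add, map_mul, map_pow, mp_C]
  have e2 : mp σ (am K g * (2 * y)) = am L (PowerSeries.map σ g) * (2 * mp σ y) := by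
    simp only [map_mul, mp_am, map_ofNat]
  exact ⟨fun h => ⟨(mp σ).injective (by rw [e1, map_pow, h.eq]), order_mp σ x ▸ h.ord,
      (mp σ).injective (by rw [e2, mp_dL, h.der])⟩,
    fun h => ⟨by rw [← e1, ← map_pow, h.eq], (order_mp σ x).symm ▸ h.ord,
      by rw [← e2, ← mp_dL, h.der]⟩⟩

theorem sol_od {a b A B w : ℂ} {e u v : ℂ⟦X⟧} (h : Sol a b e u v) (w0 : w ≠ 0)
    (hA : w ^ 4 * a = -4 * A) (hB : w ^ 6 * b = -4 * B) :
    Od A B (w⁻¹ • e) (HahnSeries.C (w ^ 2) * ls (-2) u) (HahnSeries.C (w ^ 3 / 2) * ls (-3) v) := by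
  obtain ⟨s, hs⟩ : ∃ s : ℂ⸨X⸩, s = HahnSeries.single (-1) 1 := ⟨_, rfl⟩
  have s1 : s * am ℂ X = 1 := by
    rw [hs, show am ℂ X = HahnSeries.single 1 1 from HahnSeries.ofPowerSeries_X,
      HahnSeries.single_mul_single]
    simp
  have s2 : HahnSeries.single (-2) 1 = s ^ 2 := by simp [hs, HahnSeries.single_pow]
  have s3 : HahnSeries.single (-3) 1 = s ^ 3 := by simp [hs, HahnSeries.single_pow]
  have c : ∀ z : ℂ, HahnSeries.C z = algebraMap ℂ ℂ⸨X⸩ z := fun z =>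
    (LaurentSeries.algebraMap_apply _ _).symm
  have h1 := congrArg (am ℂ) h.d
  have h2 := congrArg (am ℂ) h.c
  have h3 := congrArg (algebraMap ℂ ℂ⸨X⸩) hA
  have h4 := congrArg (algebraMap ℂ ℂ⸨X⸩) hB
  have h5 := congrArg (algebraMap ℂ ℂ⸨X⸩) (mul_inv_cancel₀ w0)
  have h6 := congrArg (algebraMap ℂ ℂ⸨X⸩) (mul_inv_cancel₀ (two_ne_zero' ℂ))
  simp only [map_sub, map_mul, map_pow, map_ofNat, am_C, map_neg, map_one] at h1 h2 h3 h4 h5 h6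
  refine ⟨?_, ?_, ?_⟩
  · rw [ls, ls, s2, s3, c, c, div_eq_mul_inv, map_mul, map_pow, map_pow]
    change (_ * (_ * am ℂ v)) ^ 2 = (_ * (_ * am ℂ u)) ^ 3 + _ * (_ * (_ * am ℂ u)) + _
    generalize algebraMap ℂ ℂ⸨X⸩ w = w at *
    generalize algebraMap ℂ ℂ⸨X⸩ 2⁻¹ = i at *
    generalize am ℂ X = t at *
    have a4 : (s * t) ^ 4 = 1 := by rw [s1, one_pow]
    have a6 : (s * t) ^ 6 = 1 := by rw [s1, one_pow]
    have a2 : (2 * i) ^ 2 = 1 := by rw [h6, one_pow]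
    linear_combination w ^ 6 * i ^ 2 * s ^ 6 * h2 - i ^ 2 * w ^ 2 * s ^ 2 * am ℂ u * h3 -
      i ^ 2 * h4 - w ^ 6 * i ^ 2 * algebraMap ℂ ℂ⸨X⸩ a * s ^ 2 * am ℂ u * a4 -
      w ^ 6 * i ^ 2 * algebraMap ℂ ℂ⸨X⸩ b * a6 + (w ^ 6 * s ^ 6 * am ℂ u ^ 3 +
      algebraMap ℂ ℂ⸨X⸩ A * w ^ 2 * s ^ 2 * am ℂ u + algebraMap ℂ ℂ⸨X⸩ B) * a2
  · refine lt_of_le_of_lt (HahnSeries.order_le_of_coeff_ne_zero (g := -2) ?_) (by norm_num)
    have := coeff_ls (-2) u 0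
    rw [Nat.cast_zero, add_zero] at this
    rw [HahnSeries.C_mul_eq_smul, HahnSeries.coeff_smul, this, coeff_zero_eq_constantCoeff_apply,
      h.u0]
    simpa
  · rw [HahnSeries.C_mul_eq_smul, dL, map_smul, ← HahnSeries.C_mul_eq_smul, ← dL, ls, ls]
    change _ * dL (_ * am ℂ u) = _ * (_ * (_ * (_ * am ℂ v)))
    rw [dL_single, dL_am, ← HahnSeries.C_mul_eq_smul, show (-2 - 1 : ℤ) = -3 from rfl, s2, s3, c, c,
      c, am_smul, div_eq_mul_inv, map_mul, map_pow, map_pow, map_intCast]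
    generalize algebraMap ℂ ℂ⸨X⸩ w = w', algebraMap ℂ ℂ⸨X⸩ w⁻¹ = j at *
    generalize algebraMap ℂ ℂ⸨X⸩ 2⁻¹ = i at *
    push_cast
    linear_combination w' ^ 2 * s ^ 3 * h1 - w' ^ 2 * s ^ 2 * am ℂ (d⁄dX ℂ u) * s1 -
      w' ^ 2 * s ^ 3 * am ℂ v * am ℂ e * h5 - j * w' ^ 3 * s ^ 3 * am ℂ v * am ℂ e * h6

end od

variable {N : ℕ} {f I : ℍ → ℂ} {a : ℕ → ℤ} {A B : ℤ} {w : ℕ} {Λ : Submodule ℤ ℂ} {x y : Mer}

/-- the differential of the parametrisation -/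
def gw (K : Type) [Field K] (a : ℕ → ℤ) (w : ℕ) : K⟦X⟧ := PowerSeries.mk fun n => a (n + 1) / w

/-- its integral `∑ a n / (n w) X ^ n` -/
def lw (K : Type) [Field K] (a : ℕ → ℤ) (w : ℕ) : K⟦X⟧ := PowerSeries.mk fun n => a n / (n * w)

theorem map_gw {K L : Type} [Field K] [Field L] (σ : K →+* L) :
    PowerSeries.map σ (gw K a w) = gw L a w := by
  ext n
  simp [gw]

theorem itg_gw (K : Type) [Field K] : itg (gw K a w) = lw K a w := by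
  ext n
  cases n with
  | zero => simp [itg, lw]
  | succ n => simp [itg, gw, lw, div_div, mul_comm]

theorem pw_od (h : RN N f a) (H : Pu.Pw N a A B w Λ I x y) :
    ∃ s t, ExM 1 s x ∧ ExM 1 t y ∧ Od (A : ℂ) B (gw ℂ a w) s t := by
  have : NeZero N := ⟨h.pos.ne'⟩
  have w0 : (w : ℂ) ≠ 0 := Nat.cast_ne_zero.2 H.wpos.ne'
  have hm := P027H.hom_scl w0 Λ
  obtain ⟨u, v, hs, eu, ev, k, -⟩ := sol h.s2 h.qe (by simp [h.zero]) (by simp [h.one])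
    (hm.isLat H.lat)
  have e : ∀ τ, Pr (fun n => (a n : ℂ)) τ = w * I τ := fun τ => by
    rw [H.I_eq, mul_div_cancel₀ _ w0]
  refine ⟨_, _, exM_of_val H.xm ((ExL.const 1 _).mul eu) (k.mono fun τ l => ?_),
    exM_of_val H.ym ((ExL.const 1 _).mul ev) (k.mono fun τ l => ?_),
    (show (w : ℂ)⁻¹ • PowerSeries.mk (fun n => (a (n + 1) : ℂ)) = gw ℂ a w by
      ext n; simp [gw, div_eq_inv_mul]) ▸ sol_od hs w0 ?_ ?_⟩
  · rw [e] at l
    rw [Pi.mul_apply, e, hm.wp, ← mul_assoc, ← mul_pow, mul_inv_cancel₀ w0, one_pow, one_mul]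
    exact H.xv τ (mt (hm.2 _).1 l)
  · rw [e] at l
    rw [Pi.mul_apply, e, hm.dwp, show (w : ℂ) ^ 3 / 2 * ((w : ℂ)⁻¹ ^ 3 * P027H.dwp Λ (I τ)) =
      P027H.dwp Λ (I τ) / 2 by field_simp]
    exact H.yv τ (mt (hm.2 _).1 l)
  · rw [hm.g2, ← H.g2_eq]; field_simp
  · rw [hm.g3, ← H.g3_eq]; field_simp

theorem pw_ex (h : RN N f a) (H : Pu.Pw N a A B w Λ I x y) {x' y' : FF} (hx : cv x' = x)
    (hy : cv y' = y) : ∃ s t, Ex 1 x' s ∧ Ex 1 y' t ∧ Od (A : Qb) B (gw Qb a w) s t := by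
  obtain ⟨s, t, h1, h2, h3⟩ := pw_od h H
  obtain ⟨s, rfl, k1⟩ := ex_of one_pos (hx ▸ h1)
  obtain ⟨t, rfl, k2⟩ := ex_of one_pos (hy ▸ h2)
  refine ⟨s, t, k1, k2, (od_mp (io : Qb →+* ℂ)).1 ?_⟩
  rw [map_intCast, map_intCast, map_gw]
  exact h3

variable {C : Type} [NontriviallyNormedField C] [IsUltrametricDist C] [CompleteSpace C]
  [IsAlgClosed C] [CharZero C] {p : ℕ} (hp : p.Prime) (p1 : ‖(p : C)‖ < 1)
include hp p1

/-- the short model -/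
theorem Od.log {A B : C} (hA : ‖A‖ ≤ 1) (hB : ‖B‖ ≤ 1) (hD : 4 * A ^ 3 + 27 * B ^ 2 ≠ 0)
    {lg : (crv A B).Point →+ C} (hl : Lc.Lg p (crv A B) lg) {g : C⟦X⟧} {s t : C⸨X⸩}
    (h : Od A B g s t) (hs : Mq 0 s) (ht : Mq 0 t) :
    ∃ ρ, 0 < ρ ∧ Cv ρ (itg g) ∧ ∀ q : C, q ≠ 0 → ‖q‖ ≤ ρ →
      ∃ (c d : C) (n : (crv A B).Nonsingular c d), Vq q s c ∧ Vq q t d ∧ 1 < ‖c‖ ∧
        ‖c / d‖ < ‖(p : C)‖ ∧ lg (.some c d n) = ev q (itg g) :=
  have z : Lc.nv C 0 ≤ 1 := by simp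
  Dc.log (E := crv A B) ⟨z, z, z, hA, hB⟩ (by
    rw [Pu.disc]; exact mul_ne_zero (by norm_num) hD) hp p1 hl hs ht
    (by rw [equation_iff]; simpa using h.eq) h.ord (by simpa [P179W.psi] using h.der)

variable (ι : Qb →+* C)

/-- a point over the modular function field whose expansion passes through the origin -/
theorem par0 {a b : Qb} {A B : C} (ha : ι a = A) (hb : ι b = B) (hA : ‖A‖ ≤ 1) (hB : ‖B‖ ≤ 1)
    (hD : 4 * A ^ 3 + 27 * B ^ 2 ≠ 0) {lg : (crv A B).Point →+ C} (hl : Lc.Lg p (crv A B) lg)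
    {M : ℕ} (hM : 0 < M) {x y : FF} {g : Qb⟦X⟧} {s t : Qb⸨X⸩} (hx : Ex M x s) (hy : Ex M y t)
    (h : Od a b g s t) :
    ∃ ρ, 0 < ρ ∧ Cv ρ (itg (PowerSeries.map ι g)) ∧ ∀ q : C, q ≠ 0 → ‖q‖ ≤ ρ →
      ∃ (c d : C) (n : (crv A B).Nonsingular c d), Vf ι M q x c ∧ Vf ι M q y d ∧ 1 < ‖c‖ ∧
        ‖c / d‖ < ‖(p : C)‖ ∧ lg (.some c d n) = ev q (itg (PowerSeries.map ι g)) := by
  subst ha hb
  obtain ⟨ρ, h1, h2, h3⟩ := ((od_mp ι).2 h).log hp p1 hA hB hD hl (ex_mq hM hx (by simp))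
    (ex_mq hM hy (by simp))
  refine ⟨ρ, h1, h2, fun q q0 hq => ?_⟩
  obtain ⟨c, d, n, k1, k2, k⟩ := h3 q q0 hq
  exact ⟨c, d, n, ⟨s, hx, k1⟩, ⟨t, hy, k2⟩, k⟩

/-- **the logarithm of the modular parametrisation**, values of functions -/
theorem par1 (h : RN N f a) (H : Pu.Pw N a A B w Λ I x y) {x' y' : FF} (hx : cv x' = x)
    (hy : cv y' = y) {lg : (crv (A : C) B).Point →+ C} (hl : Lc.Lg p (crv (A : C) B) lg) :
    ∃ ρ, 0 < ρ ∧ Cv ρ (lw C a w) ∧ ∀ M : ℕ, 0 < M → ∀ t : C, t ≠ 0 → ‖t ^ M‖ ≤ ρ →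
      ∃ (c d : C) (n : (crv (A : C) B).Nonsingular c d), Vf ι M t x' c ∧ Vf ι M t y' d ∧
        1 < ‖c‖ ∧ ‖c / d‖ < ‖(p : C)‖ ∧ lg (.some c d n) = ev (t ^ M) (lw C a w) := by
  obtain ⟨s, t, h1, h2, h3⟩ := pw_ex h H hx hy
  obtain ⟨ρ, k1, k2, k3⟩ := par0 hp p1 ι (map_intCast ι A) (map_intCast ι B)
    (IsUltrametricDist.norm_intCast_le_one C A) (IsUltrametricDist.norm_intCast_le_one C B)
    (by exact_mod_cast H.disc) hl one_pos h1 h2 h3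
  rw [map_gw, itg_gw] at k2 k3
  refine ⟨ρ, k1, k2, fun M hM t t0 ht => ?_⟩
  obtain ⟨c, d, n, e1, e2, e⟩ := k3 _ (pow_ne_zero M t0) ht
  exact ⟨c, d, n, by simpa using e1.up one_pos hM, by simpa using e2.up one_pos hM, e⟩

omit hp p1 [IsAlgClosed C] [CharZero C] in
theorem At.sp {F : Type} [Field F] [Algebra Qb F] [CFF Qb F] [DecidableEq F] [DecidableEq Qb]
    [DecidableEq C] {e : F →+* FF} {P : Plk Qb F} {M : ℕ} (hM : 0 < M) {t : C} (h : At ι M t e P)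
    {a b : Qb} {a' b' : F} (k : Pu.Cd a b a' b') {A B : C} (ha : ι a = A) (hb : ι b = B) {u v : F}
    (n : (crv a' b').Nonsingular u v) {c d : C} (hc : Vf ι M t (e u) c) (hd : Vf ι M t (e v) d)
    (n' : (crv A B).Nonsingular c d) :
    Pu.mp ι ha hb (Pu.sp k P (.some u v n)) = .some c d n' := by
  obtain ⟨c, rfl, h1⟩ := h.alg hM hc
  obtain ⟨d, rfl, h2⟩ := h.alg hM hd
  obtain ⟨m, e⟩ := Pu.sp_some k n h1 h2
  rw [e, Pu.mp_some]

/-- **the logarithm of the modular parametrisation**, specialisation at a place -/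
theorem par (h : RN N f a) (H : Pu.Pw N a A B w Λ I x y) {x' y' : FF} (hx : cv x' = x)
    (hy : cv y' = y) {lg : (crv (A : C) B).Point →+ C} (hl : Lc.Lg p (crv (A : C) B) lg) :
    ∃ ρ, 0 < ρ ∧ Cv ρ (lw C a w) ∧ ∀ (F : Type) [Field F] [Algebra Qb F] [CFF Qb F] [DecidableEq F]
      [DecidableEq Qb] (e : F →+* FF) (P : Plk Qb F) (M : ℕ) (t : C) (a' b' : F)
      (k : Pu.Cd (A : Qb) B a' b') (u v : F) (n : (crv a' b').Nonsingular u v), 0 < M → t ≠ 0 →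
      ‖t ^ M‖ ≤ ρ → At ι M t e P → e u = x' → e v = y' → u ∈ P.1 ∧
      ∀ Q, Q = Pu.mp ι (map_intCast ι A) (map_intCast ι B) (Pu.sp k P (.some u v n)) →
        P179W.KerV (Lc.nv C) Q ∧ ‖Lc.zf (E := crv (A : C) B) Q‖ < ‖(p : C)‖ ∧
          lg Q = ev (t ^ M) (lw C a w) := by
  obtain ⟨ρ, k1, k2, k3⟩ := par1 hp p1 ι h H hx hy hl
  refine ⟨ρ, k1, k2, fun F _ _ _ _ _ e P M t a' b' k u v n hM t0 ht hP hu hv => ?_⟩
  obtain ⟨c, d, m, e1, e2, e3, e4, e5⟩ := k3 M hM t t0 ht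
  subst hu hv
  refine ⟨(hP.mem hM).2 ⟨c, e1⟩, fun Q hQ => ?_⟩
  rw [hQ, At.sp ι hM hP k _ _ n e1 e2 m]
  exact ⟨e3.not_ge, by rw [← norm_neg, ← neg_div] at e4; exact e4, e5⟩

end Vale.Agent.P014T.Dc
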