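import Vale.Agent.P014T.Dc.Ff

/-!
# P014T, block DISC: the fibres of modular curves over a point of the Tate disc

Every place of `L Γ` over a value `a` of `j` with `‖ι a‖ > 1` is evaluation of `f ∘ γ` at a fixed
point `t`; the class `γ` modulo `± Γ` is determined by the place.
-/

set_option linter.all false

noncomputable section

open PowerSeries LaurentSeries Filter Topology Vale.Agent.P022K.FI Vale.Agent.P022K.QT
open P027M.K (Val exists_val)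
open scoped MatrixGroups IntermediateField

namespace Vale.Agent.P014T.Dc

open Vale.Agent.P022 Vale.Agent.P022.H218.L3 Vale.Agent.P022.H231.L3 Vale.Agent.P022.H236.L3
  Vale.Agent.P027M.M Vale.Agent.P019P Cu P025H492 ArtinAux CongruenceSubgroup

/-! ## level fields -/

section lev

variable {Γ Γ' : Subgroup SL(2, ℤ)} {N : ℕ} {γ δ : SL(2, ℤ)}

/-- the modular invariant in a level field -/
def jL (Γ : Subgroup SL(2, ℤ)) : L Γ := ⟨jF, jF_mem Γ⟩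

theorem jL_ne (Γ : Subgroup SL(2, ℤ)) (a : Qb) : jL Γ ≠ algebraMap Qb (L Γ) a := fun e =>
  jF_ne a (congrArg Subtype.val e)

theorem fin_j (hΓ : Γ.FiniteIndex) : FiniteDimensional Qb⟮jL Γ⟯ (L Γ) := by
  obtain ⟨X⟩ := mdl
  let _ := algL (le_top : Γ ≤ ⊤)
  have := (artin X ⊤ Γ le_top hΓ).1
  have m : ∀ y : L ⊤, algebraMap (L ⊤) (L Γ) y ∈ Qb⟮jL Γ⟯ := fun y => by
    rw [← IntermediateField.mem_lift, IntermediateField.lift_adjoin_simple]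
    exact L_top ▸ y.2
  let _ : Algebra (L ⊤) Qb⟮jL Γ⟯ := ((algebraMap (L ⊤) (L Γ)).codRestrict _ m).toAlgebra
  have : IsScalarTower (L ⊤) Qb⟮jL Γ⟯ (L Γ) := .of_algebraMap_eq fun _ => rfl
  exact Module.Finite.of_restrictScalars_finite (L ⊤) _ _

/-- **all level fields are function fields** -/
theorem cff (Γ : Subgroup SL(2, ℤ)) (hΓ : Γ.FiniteIndex) : CFF Qb (L Γ) := by
  refine ⟨inferInstance, jL Γ, fun ha => ?_, fin_j hΓ⟩
  obtain ⟨a, e⟩ := minpoly.mem_range_of_degree_eq_one _ _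
    (IsAlgClosed.degree_eq_one_of_irreducible Qb (minpoly.irreducible ha.isIntegral))
  exact jL_ne Γ a e.symm

theorem fi_gamma (hN : 0 < N) (h : Gamma N ≤ Γ) : Γ.FiniteIndex := by
  haveI : NeZero N := ⟨hN.ne'⟩
  exact Subgroup.finiteIndex_of_le h

theorem adj_jL (a : Qb) : Qb⟮jL ⊤ - algebraMap Qb (L ⊤) a⟯ = ⊤ := by
  rw [adjoin_sub_eq]
  apply IntermediateField.lift_injective
  rw [IntermediateField.lift_adjoin_simple, IntermediateField.lift_top]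
  exact L_top.symm

theorem gamma_conj (N : ℕ) (γ : SL(2, ℤ)) : ∀ δ ∈ Gamma N, γ * δ * γ⁻¹ ∈ Gamma N :=
  fun δ h => (Gamma_normal N).conj_mem δ h γ

variable (X : Mdl)

theorem pg_neg (γ : SL(2, ℤ)) (x : FF) : X.pg (-γ) x = X.pg γ x := cv_inj (by
  rw [cv_pg, cv_pg, show (-γ)⁻¹ = -γ⁻¹ from inv_neg, Galx.act_neg])

theorem pg_inv (γ : SL(2, ℤ)) (x : FF) : X.pg γ⁻¹ (X.pg γ x) = x := by
  rw [← pg_mul, mul_inv_cancel, pg_one]

theorem pg_inv' (γ : SL(2, ℤ)) (x : FF) : X.pg γ (X.pg γ⁻¹ x) = x := by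
  rw [← pg_mul, inv_mul_cancel, pg_one]

theorem mem_Gt : γ ∈ Gt N ↔ γ ∈ Gamma N ∨ -γ ∈ Gamma N := by
  have d := γ.det_coe
  rw [Matrix.det_fin_two] at d
  have d' := congrArg (Int.cast : ℤ → ZMod N) d
  push_cast at d'
  simp only [mem_Gp, Gamma_mem, ← ZMod.intCast_zmod_eq_zero_iff_dvd, Matrix.SpecialLinearGroup.coe_neg,
    Matrix.neg_apply, Int.cast_neg, neg_eq_zero, Int.cast_sub, Int.cast_add, Int.cast_one]
  constructor
  · rintro ⟨h1, h2, h3 | h3⟩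
    · exact Or.inl ⟨by linear_combination d' - (γ 0 0 : ZMod N) * h3 + (γ 0 1 : ZMod N) * h1, h2, h1,
        by linear_combination h3⟩
    · exact Or.inr ⟨by linear_combination d' - (γ 0 0 : ZMod N) * h3 + (γ 0 1 : ZMod N) * h1, h2, h1,
        by linear_combination -h3⟩
  · rintro (⟨-, h2, h3, h4⟩ | ⟨-, h2, h3, h4⟩)
    · exact ⟨h3, h2, Or.inl (by linear_combination h4)⟩
    · exact ⟨h3, h2, Or.inr (by linear_combination -h4)⟩

include X in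
theorem L_Gt (N : ℕ) : L (Gt N) = L (Gamma N) :=
  le_antisymm (L_mono (Gamma_le _ N dvd_rfl)) fun x hx => (mem_L_iff X).2 fun γ hγ =>
    (mem_Gt.1 hγ).elim ((mem_L_iff X).1 hx γ) fun h => by
      rw [← pg_neg]; exact (mem_L_iff X).1 hx _ h

theorem t_fix (h : X.pg γ X.t = X.t) : γ ∈ G0 := by
  have hN : Lv 4 := ⟨by norm_num, dvd_rfl⟩
  obtain ⟨s, g1, e1⟩ := X.tex0 4 hN 1 (by simp)
  have e : act γ⁻¹ (cv X.t) = act (1 : SL(2, ℤ))⁻¹ (cv X.t) := by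
    rw [← cv_pg X, h, ← cv_pg X, pg_one]
  have c1 : ∀ n : ℤ, n < 4 → s.coeff n = 0 := fun n hn =>
    HahnSeries.coeff_eq_zero_of_lt_order (by rw [g1.ord]; exact_mod_cast hn)
  have c2 : ∀ n : ℤ, (2 : H542.L3.LS).coeff n = if n = 0 then 2 else 0 := fun n => by
    rw [← one_add_one_eq_two, HahnSeries.coeff_add, HahnSeries.coeff_one]
    split_ifs <;> norm_num
  rw [Gamma0_mem]
  refine (ZMod.intCast_zmod_eq_zero_iff_dvd _ 4).2 ?_
  by_contra h4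
  rcases Int.even_or_odd (γ 1 0) with o | o
  · obtain ⟨s', g2, e2⟩ := X.tex2 4 hN γ (by obtain ⟨m, hm⟩ := o; omega)
    rw [e] at e2
    have := congrArg (fun z : H542.L3.LS => z.coeff 0) (ExM.unique (by norm_num) e1 e2)
    simp only [HahnSeries.coeff_add, HahnSeries.coeff_neg, c1 0 (by norm_num), c2, if_pos,
      HahnSeries.coeff_eq_zero_of_lt_order (show (0 : ℤ) < s'.order by rw [g2.ord]; norm_num)] at this
    norm_num at this
  · obtain ⟨s', g2, e2⟩ := X.tex1 4 hN γ o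
    rw [e] at e2
    have := congrArg (fun z : H542.L3.LS => z.coeff (-1)) (ExM.unique (by norm_num) e1 e2)
    simp only [HahnSeries.coeff_add, c1 (-1) (by norm_num), c2] at this
    have h5 := HahnSeries.coeff_order_eq_zero.not.2 g2.ne
    rw [g2.ord] at h5
    exact h5 (by simpa using this.symm)

/-- **faithfulness** -/
theorem fix_Gt (hN : Lv N) (h : ∀ x ∈ L (Gamma N), X.pg γ x = x) : γ ∈ Gt N := by
  rw [← L_Gt X] at h
  have m := (grp N hN).2.2.1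
  exact (x_faith X).2.1 N _ m γ (t_fix X (h _ (X.tL m.hi).2)) h

theorem fix_mem (hN : Lv N) (h0 : Gamma N ≤ Γ) (h : ∀ x ∈ L Γ, X.pg γ x = x) :
    γ ∈ Γ ∨ -γ ∈ Γ := by
  have fi := fi_gamma hN.pos le_rfl
  obtain ⟨σ, hσ⟩ := ((artin X ⊤ (Gamma N) le_top fi).2 fun a _ => gamma_conj N a).2.2 γ trivial
  letI := algL (le_top : Gamma N ≤ ⊤)
  letI := algL h0
  obtain ⟨δ, hδ, e⟩ := ((artin X Γ (Gamma N) h0 fi).2 fun a _ => gamma_conj N a).2.1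
    (AlgEquiv.ofRingEquiv (f := (σ : L (Gamma N) ≃+* L (Gamma N))) fun x =>
      Subtype.ext ((hσ _).trans (h x x.2)))
  have k : γ * δ⁻¹ ∈ Gt N := fix_Gt X hN fun x hx => by
    rw [pg_mul, (hσ ⟨x, hx⟩).symm.trans (e ⟨x, hx⟩), pg_inv]
  refine (mem_Gt.1 k).imp (fun k => ?_) fun k => ?_
  · simpa using Γ.mul_mem (h0 k) hδ
  · simpa using Γ.mul_mem (h0 k) hδ

/-- the embedding `f ↦ f ∘ γ` of a level field -/
def eg (γ : SL(2, ℤ)) (Γ : Subgroup SL(2, ℤ)) : L Γ →+* FF :=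
  (X.pg γ : FF →+* FF).comp (algebraMap (L Γ) FF)

theorem eg_apply (γ : SL(2, ℤ)) (z : L Γ) : eg X γ Γ z = X.pg γ z := rfl

theorem eg_j (γ : SL(2, ℤ)) : eg X γ Γ (jL Γ) = jF := pg_jF X γ

theorem eg_const (γ : SL(2, ℤ)) (a : Qb) :
    eg X γ Γ (algebraMap Qb (L Γ) a) = algebraMap Qb FF a := (X.pg γ).commutes a

theorem eg_mem (h : Gamma N ≤ Γ) (γ : SL(2, ℤ)) (z : L Γ) : eg X γ Γ z ∈ L (Gamma N) :=
  pg_mem X (gamma_conj N γ) (L_mono h z.2)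

theorem eg_lf (hN : 0 < N) (h : Gamma N ≤ Γ) (γ : SL(2, ℤ)) (z : L Γ) : Lf N (eg X γ Γ z) :=
  lf_gamma hN le_rfl (eg_mem X h γ z)

theorem eg_left (hδ : δ ∈ Γ) (γ : SL(2, ℤ)) : eg X (δ * γ) Γ = eg X γ Γ :=
  RingHom.ext fun z => by rw [eg_apply, eg_apply, pg_mul, (mem_L_iff X).1 z.2 δ hδ]

theorem eg_neg (γ : SL(2, ℤ)) : eg X (-γ) Γ = eg X γ Γ := RingHom.ext fun z => pg_neg X γ z

theorem eg_comp (γ δ : SL(2, ℤ)) : (X.pg δ : FF →+* FF).comp (eg X γ Γ) = eg X (γ * δ) Γ :=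
  RingHom.ext fun z => (pg_mul X γ δ z).symm

theorem eg_eq_iff (hN : Lv N) (h0 : Gamma N ≤ Γ) :
    eg X γ Γ = eg X δ Γ ↔ γ * δ⁻¹ ∈ Γ ∨ -(γ * δ⁻¹) ∈ Γ := by
  refine ⟨fun h => fix_mem X hN h0 fun x hx => ?_, fun h => h.elim (fun h => ?_) fun h => ?_⟩
  · rw [pg_mul, show X.pg γ x = X.pg δ x from RingHom.congr_fun h ⟨x, hx⟩, pg_inv]
  · rw [← eg_left X h δ, inv_mul_cancel_right]
  · rw [← eg_left X h δ, neg_mul, inv_mul_cancel_right, eg_neg]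

end lev

/-! ## orders -/

variable {C : Type} [NontriviallyNormedField C] [IsUltrametricDist C] [CompleteSpace C]
  [IsAlgClosed C] {ι : Qb →+* C} {t : C} {N : ℕ} {r : ℝ}

theorem Pa.ord {k F : Type*} [Field k] [Field F] [Algebra k F] [CFF k F] {ι : k →+* C}
    {θ : F →+* C⸨X⸩} {P : Plk k F} (h : Pa ι θ t P) (hr : 0 < r) (ht : ‖t‖ ≤ r)
    (hm : ∀ z, θ z ∈ MM C r) {π : F} (h1 : od r t (θ π) = 1) (z : F) : ord P z = od r t (θ z) := by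
  have n : ∀ z : F, z ≠ 0 → θ z ≠ 0 := fun z hz => (_root_.map_ne_zero θ).2 hz
  refine congrFun (IsOrd.unique (ord_spec P) (g := fun z => od r t (θ z))
    ⟨by simp only [map_zero, od_zero hr ht], fun x y hx hy => ?_, fun x y _ _ e => ?_, fun x => ?_,
      π, h1⟩) z
  · rw [map_mul, od_mul hr ht (hm x) (hm y) (n x hx) (n y hy)]
  · have := n _ e
    rw [map_add] at this ⊢
    exact od_add hr ht (hm x) (hm y) this
  · rw [h.mem]
    refine ⟨fun ⟨c, e⟩ => Or.inr (e.od_nonneg hr ht (hm x)), fun e => e.elim (fun e => ⟨0, ?_⟩)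
      fun e => (vq_of_od hr ht (hm x) e).imp fun _ e => e.1⟩
    rw [e, map_zero]
    exact vq_zero t

/-- `j` is a local parameter on the punctured disc -/
theorem od_j (hN : 0 < N) (n0 : (N : C) ≠ 0) (h0 : t ≠ 0) (hr : 0 < r) (h1 : r < 1) (ht : ‖t‖ ≤ r) :
    od r t (ex N hN (jS C) - algebraMap C C⸨X⸩ (jv (t ^ N))) = 1 := by
  set a := jv (t ^ N) with ha
  have q1 : ‖t ^ N‖ < 1 := by
    rw [norm_pow]; exact pow_lt_one₀ (norm_nonneg _) (ht.trans_lt h1) hN.ne'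
  have q0 := pow_ne_zero N h0
  have r1 : r ^ N < 1 := pow_lt_one₀ hr.le h1 hN.ne'
  have r0 := pow_pos hr N
  have q2 : ‖t ^ N‖ ≤ r ^ N := by rw [norm_pow]; gcongr
  have c1 : Cv (r ^ N) (JP C - PowerSeries.C a * X) :=
    (ig_JP.cv r0 r1).sub ((cv_C _ a).mul (cv_X _))
  have c2 := cv_expand hN.ne' c1 hr le_rfl
  have c3 : Cv r (X ^ N : C⟦X⟧) := (cv_X r).pow N
  have e : ex N hN (jS C) - algebraMap C C⸨X⸩ a =
      am C (expand N hN.ne' (JP C - PowerSeries.C a * X)) / am C (X ^ N) := by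
    rw [jS, map_div₀, ex_am, ex_am, expand_X, map_sub, map_mul, expand_X, expand_C, map_sub,
      map_mul, am_C, _root_.sub_div, mul_div_cancel_right₀ _ (am_ne (pow_ne_zero _ X_ne_zero))]
  have d1 : ev t (d⁄dX C (expand N hN.ne' (JP C - PowerSeries.C a * X))) ≠ 0 := by
    have c4 : Cv (r ^ N) (d⁄dX C (JP C) - PowerSeries.C a) := (ig_JP.deriv.cv r0 r1).sub (cv_C _ a)
    rw [expand_apply, derivative_subst (HasSubst.X_pow hN.ne'), ← expand_apply N hN.ne',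
      show d⁄dX C (JP C - PowerSeries.C a * X) = d⁄dX C (JP C) - PowerSeries.C a by simp,
      ev_mul hr ht (cv_expand hN.ne' c4 hr le_rfl) (c3.deriv hr), ev_expand,
      ev_sub q2 (ig_JP.deriv.cv r0 r1) (cv_C _ a), ev_C]
    refine mul_ne_zero (sub_ne_zero.2 fun e => ?_) ?_
    · have := ig_JP.deriv.norm_ev_le q1
      rw [e, Algebra.algebraMap_self, RingHom.id_apply, ha, norm_jv q1] at this
      exact absurd this (not_le.2 ((one_lt_inv₀ (norm_pos_iff.2 q0)).2 q1))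
    · rw [← Polynomial.coe_X, ← Polynomial.coe_pow, derivative_coe, ev_poly,
        Polynomial.derivative_X_pow]
      simp [n0, h0]
  have f0 : expand N hN.ne' (JP C - PowerSeries.C a * X) ≠ 0 := fun e => d1 (by
    rw [e, map_zero, ev_zero])
  have d2 : ev t (expand N hN.ne' (JP C - PowerSeries.C a * X)) = 0 := by
    rw [ev_expand, ev_sub q2 (ig_JP.cv r0 r1) ((cv_C _ a).mul (cv_X _)),
      ev_mul r0 q2 (cv_C _ a) (cv_X _), ev_C, ev_X, ha, jv]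
    simp [div_mul_cancel₀ _ q0]
  have d3 : od r t (am C (X ^ N)) = 0 := od_am_eq_zero hr ht c3 (by
    rw [ev_pow hr ht (cv_X r), ev_X]; exact q0)
  rw [e, od_div hr ht c2.mem c3.mem (am_ne f0) (am_ne (pow_ne_zero _ X_ne_zero)), d3, sub_zero]
  exact le_antisymm (od_le_one hr ht c2 d1) (od_am_pos hr ht c2 f0 d2)

theorem ex_mm {f : FF} {x : Qb⸨X⸩} (hN : 0 < N) (h : Ex N f x) (hr : 0 < r) (h1 : r < 1) :
    mp ι x ∈ MM C r := by
  by_cases f0 : f = 0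
  · rw [h.unique hN (f0 ▸ ex_zero N), map_zero]
    exact zero_mem _
  · obtain ⟨c, D, e⟩ := hf_iff.1 (h.hf ι hN f0)
    exact e.mem hr h1

section ord

variable {F : Type*} [Field F] [Algebra Qb F] [CFF Qb F] {e : F →+* FF} {P : Plk Qb F}

theorem At.od_j (hN : 0 < N) (h : At ι N t e P) (h0 : t ≠ 0) (hr : 0 < r) (h1 : r < 1)
    (ht : ‖t‖ ≤ r) (hc : ∀ a, e (algebraMap Qb F a) = algebraMap Qb FF a) {j : F} (hj : e j = jF)
    {a : Qb} (ha : Val P j a) : od r t (th ι e hN (h.lf hN) (j - algebraMap Qb F a)) = 1 := by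
  have e1 : ι a = jv (t ^ N) := ((h j a).1 ha).uniq hN (hj ▸ vf_j hN h0 (ht.trans_lt h1))
  have e2 : Ex N (e j) (ex N hN (jS Qb)) := by simpa [hj] using ex_jF.up one_pos hN
  rw [map_sub, th_eq hN _ e2, th_eq hN _ (hc a ▸ ex_const N a), mp_ex, mp_jS, mp_C, e1]
  exact Dc.od_j hN (by rw [← map_natCast ι]; exact (_root_.map_ne_zero ι).2 (by
    exact_mod_cast hN.ne')) h0 hr h1 ht

/-- orders are orders of the expansion -/
theorem At.ord (hN : 0 < N) (h : At ι N t e P) (h0 : t ≠ 0) (hr : 0 < r) (h1 : r < 1)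
    (ht : ‖t‖ ≤ r) (hc : ∀ a, e (algebraMap Qb F a) = algebraMap Qb FF a) {j : F} (hj : e j = jF)
    {z : F} {x : Qb⸨X⸩} (hz : Ex N (e z) x) : ord P z = od r t (mp ι x) := by
  obtain ⟨a, -, ha⟩ := h.j hN h0 (ht.trans_lt h1) hj
  rw [(h.pa hN).ord hr ht (fun z => ex_mm hN (h.lf hN z).choose_spec hr h1)
    (h.od_j hN h0 hr h1 ht hc hj ha), th_eq hN _ hz]

/-- **no ramification over the Tate disc** -/
theorem At.ord_j (hN : 0 < N) (h : At ι N t e P) (h0 : t ≠ 0) (h1 : ‖t‖ < 1)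
    (hc : ∀ a, e (algebraMap Qb F a) = algebraMap Qb FF a) {j : F} (hj : e j = jF)
    {a : Qb} (ha : Val P j a) : P019P.ord P (j - algebraMap Qb F a) = 1 := by
  obtain ⟨r, k1, k2, k3, -⟩ := exists_r h1 h1
  rw [(h.pa hN).ord k1 k3 (fun z => ex_mm hN (h.lf hN z).choose_spec k1 k2)
    (h.od_j hN h0 k1 k2 k3 hc hj ha), h.od_j hN h0 k1 k2 k3 hc hj ha]

end ord

/-! ## fibres -/

variable (X : Mdl) {Γ : Subgroup SL(2, ℤ)} {γ δ : SL(2, ℤ)} {a : Qb}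

omit [IsAlgClosed C] in
/-- the conjugate of a place under `Γ` -/
theorem at_conj (hN : 0 < N) {Γ' : Subgroup SL(2, ℤ)} [CFF Qb (L Γ')] {P Q : Plk Qb (L Γ')}
    (σ : L Γ' ≃+* L Γ') (hσ : ∀ z, ((σ z : L Γ') : FF) = X.pg δ z)
    (hPQ : ∀ z, σ z ∈ P.1 ↔ z ∈ Q.1) (h : At ι N t (eg X γ Γ') P) :
    At ι N t (eg X (δ * γ) Γ') Q := by
  have := h.down hN (σ : L Γ' →+* L Γ') (fun a => Subtype.ext ((hσ _).trans
    ((X.pg δ).commutes a))) hPQ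
  rwa [show (eg X γ Γ').comp (σ : L Γ' →+* L Γ') = eg X (δ * γ) Γ' from RingHom.ext fun z => by
    rw [eg_apply, pg_mul, ← hσ]; rfl] at this

theorem ex_fib (hN : 0 < N) (h : Gamma N ≤ Γ) [CFF Qb (L Γ)] (h0 : t ≠ 0) (h1 : ‖t‖ < 1)
    (ha : jv (t ^ N) = ι a) (γ : SL(2, ℤ)) :
    ∃ P : Plk Qb (L Γ), At ι N t (eg X γ Γ) P ∧ Val P (jL Γ) a :=
  ex_at_j hN (eg_lf X hN h γ) (eg_const X γ) h0 h1 (eg_j X γ) ha

omit [IsUltrametricDist C] [CompleteSpace C] [IsAlgClosed C] in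
theorem val_pos [CFF Qb (L Γ)] {P : Plk Qb (L Γ)} (h : Val P (jL Γ) a) :
    0 < ord P (jL Γ - algebraMap Qb (L Γ) a) :=
  (mem_Mge.1 h).resolve_left (sub_ne_zero.2 (jL_ne Γ a))

omit [IsUltrametricDist C] [CompleteSpace C] [IsAlgClosed C] in
include X in
/-- places of level `N` with the same restriction to `L Γ` are conjugate under `Γ` -/
theorem ex_conj (hN : 0 < N) (h : Gamma N ≤ Γ) [CFF Qb (L Γ)] [CFF Qb (L (Gamma N))]
    {P Q : Plk Qb (L (Gamma N))}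
    (e : ∀ z : L Γ, IntermediateField.inclusion (L_mono h) z ∈ P.1 ↔
      IntermediateField.inclusion (L_mono h) z ∈ Q.1) :
    ∃ δ ∈ Γ, ∃ σ : L (Gamma N) ≃+* L (Gamma N), (∀ z, ((σ z : L (Gamma N)) : FF) = X.pg δ z) ∧
      ∀ z, σ z ∈ P.1 ↔ z ∈ Q.1 := by
  letI := algL h
  haveI := towerL h
  obtain ⟨f1, f2⟩ := artin X Γ (Gamma N) h (fi_gamma hN le_rfl)
  obtain ⟨f3, f4, -⟩ := f2 fun a _ => gamma_conj N a
  haveI := f1
  haveI := f3
  obtain ⟨σ, rfl⟩ := exists_conj_eq (K := L Γ) (P := P) (Q := Q) (Subtype.ext (SetLike.ext e))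
  obtain ⟨δ, hδ, k⟩ := f4 σ.symm
  exact ⟨δ, hδ, σ.symm, k, fun z => Iff.rfl⟩

omit [IsUltrametricDist C] [CompleteSpace C] [IsAlgClosed C] in
theorem ex_up (hN : 0 < N) (h : Gamma N ≤ Γ) [CFF Qb (L Γ)] [CFF Qb (L (Gamma N))]
    (P : Plk Qb (L Γ)) : ∃ Q : Plk Qb (L (Gamma N)),
      ∀ z : L Γ, IntermediateField.inclusion (L_mono h) z ∈ Q.1 ↔ z ∈ P.1 := by
  obtain ⟨X⟩ := mdl
  letI := algL h
  haveI := towerL h
  haveI := (artin X Γ (Gamma N) h (fi_gamma hN le_rfl)).1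
  obtain ⟨Q, rfl⟩ := exists_over (L := L (Gamma N)) P
  exact ⟨Q, fun z => Iff.rfl⟩

omit [IsAlgClosed C] in
theorem at_down (hN : 0 < N) {Γ' : Subgroup SL(2, ℤ)} (h : Γ' ≤ Γ) [CFF Qb (L Γ)] [CFF Qb (L Γ')]
    {P : Plk Qb (L Γ)} {Q : Plk Qb (L Γ')} (k : At ι N t (eg X γ Γ') Q)
    (e : ∀ z : L Γ, IntermediateField.inclusion (L_mono h) z ∈ Q.1 ↔ z ∈ P.1) :
    At ι N t (eg X γ Γ) P :=
  k.down hN (IntermediateField.inclusion (L_mono h) : L Γ →+* L Γ') (fun _ => rfl) e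

omit [IsAlgClosed C] in
theorem at_over (hN : 0 < N) {Γ' : Subgroup SL(2, ℤ)} (h : Γ' ≤ Γ) [CFF Qb (L Γ)] [CFF Qb (L Γ')]
    {P : Plk Qb (L Γ)} {Q : Plk Qb (L Γ')} (k : At ι N t (eg X γ Γ') Q)
    (k' : At ι N t (eg X γ Γ) P) (z : L Γ) :
    IntermediateField.inclusion (L_mono h) z ∈ Q.1 ↔ z ∈ P.1 :=
  (k.mem hN).trans (k'.mem hN).symm

/-- **every place over `a` is a translate** -/
theorem all_fib (hN : 0 < N) (h : Gamma N ≤ Γ) [CFF Qb (L Γ)] (h0 : t ≠ 0) (h1 : ‖t‖ < 1)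
    (ha : jv (t ^ N) = ι a) {P : Plk Qb (L Γ)} (hP : Val P (jL Γ) a) :
    ∃ γ, At ι N t (eg X γ Γ) P := by
  haveI := cff _ (fi_gamma hN (le_refl (Gamma N)))
  haveI := cff ⊤ inferInstance
  obtain ⟨Q, hQ⟩ := ex_up hN h P
  obtain ⟨R, hR, hR'⟩ := ex_fib X hN le_rfl h0 h1 ha 1
  have hQ' : Val Q (jL _) a := (val_of_mem
    (IntermediateField.inclusion (L_mono h) : L Γ →+* L (Gamma N)) id (fun _ => rfl) hQ).2 hP
  obtain ⟨δ, -, σ, k1, k2⟩ := ex_conj X hN (le_top : Gamma N ≤ ⊤) (P := R) (Q := Q) (by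
    letI := algL (le_top : Gamma N ≤ ⊤)
    haveI := towerL (le_top : Gamma N ≤ ⊤)
    haveI := (artin X ⊤ (Gamma N) le_top (fi_gamma hN le_rfl)).1
    have e : down (L ⊤) R = down (L ⊤) Q := Pla.zero_unique (adj_jL a)
      ((ord_up_pos_iff _ _).1 (val_pos hR')) ((ord_up_pos_iff _ _).1 (val_pos hQ'))
    intro z
    exact (mem_down R z).symm.trans (e ▸ mem_down Q z))
  exact ⟨_, at_down X hN h (at_conj X hN σ k1 k2 hR) hQ⟩

theorem inj_top (hN : 0 < N) [CFF Qb (L (Gamma N))] (h0 : t ≠ 0) (h1 : ‖t‖ < 1)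
    {P : Plk Qb (L (Gamma N))} (k : At ι N t (eg X γ _) P) (k' : At ι N t (eg X δ _) P) :
    eg X γ (Gamma N) = eg X δ (Gamma N) := by
  haveI := cff ⊤ inferInstance
  letI := algL (le_top : Gamma N ≤ ⊤)
  haveI := towerL (le_top : Gamma N ≤ ⊤)
  obtain ⟨f1, f2⟩ := artin X ⊤ (Gamma N) le_top (fi_gamma hN le_rfl)
  obtain ⟨f3, -, f4⟩ := f2 fun a _ => gamma_conj N a
  haveI := f1
  haveI := f3
  obtain ⟨a, -, ha⟩ := k.j hN h0 h1 (eg_j X γ)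
  have e1 := k.ord_j hN h0 h1 (eg_const X γ) (eg_j X γ) ha
  have e2 : ram (L ⊤) P = 1 := by
    have := (ord_algebraMap P (jL ⊤ - algebraMap Qb (L ⊤) a)).symm.trans e1
    exact_mod_cast Int.eq_one_of_mul_eq_one_right (Int.natCast_nonneg _) this
  obtain ⟨σ, hσ⟩ := f4 (γ * δ⁻¹) trivial
  have e3 : σ⁻¹ ∈ inertia (L ⊤) P := Subtype.ext (SetLike.ext fun z => by
    show σ z ∈ P.1 ↔ z ∈ P.1
    refine (k'.mem hN).trans (Iff.trans ?_ (k.mem hN).symm)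
    rw [eg_apply, eg_apply, hσ, ← pg_mul, inv_mul_cancel_right])
  rw [(ram_eq_one_iff P).1 e2, Subgroup.mem_bot, inv_eq_one] at e3
  ext z
  have := hσ z
  rw [e3, AlgEquiv.one_apply] at this
  rw [eg_apply, eg_apply]
  conv_rhs => rw [this, ← pg_mul, inv_mul_cancel_right]

/-- **the place determines the embedding** -/
theorem inj_fib (hN : 0 < N) (h : Gamma N ≤ Γ) [CFF Qb (L Γ)] (h0 : t ≠ 0) (h1 : ‖t‖ < 1)
    {P : Plk Qb (L Γ)} (k : At ι N t (eg X γ Γ) P) (k' : At ι N t (eg X δ Γ) P) :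
    eg X γ Γ = eg X δ Γ := by
  haveI := cff _ (fi_gamma hN (le_refl (Gamma N)))
  obtain ⟨a, ha, -⟩ := k.j hN h0 h1 (eg_j X γ)
  obtain ⟨Q, hQ, -⟩ := ex_fib X hN le_rfl h0 h1 ha.symm γ
  obtain ⟨R, hR, -⟩ := ex_fib X hN le_rfl h0 h1 ha.symm δ
  obtain ⟨ε, hε, σ, k1, k2⟩ := ex_conj X hN h (P := Q) (Q := R) fun z =>
    (at_over X hN h hQ k z).trans (at_over X hN h hR k' z).symm
  have := inj_top X hN h0 h1 (at_conj X hN σ k1 k2 hQ) hR
  rw [← eg_left X hε γ]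
  exact RingHom.ext fun z => RingHom.congr_fun this (IntermediateField.inclusion (L_mono h) z)

theorem fib_iff (hN : Lv N) (h : Gamma N ≤ Γ) [CFF Qb (L Γ)] (h0 : t ≠ 0) (h1 : ‖t‖ < 1)
    {P : Plk Qb (L Γ)} (k : At ι N t (eg X γ Γ) P) :
    At ι N t (eg X δ Γ) P ↔ γ * δ⁻¹ ∈ Γ ∨ -(γ * δ⁻¹) ∈ Γ := by
  rw [← eg_eq_iff X hN h]
  exact ⟨inj_fib X hN.pos h h0 h1 k, fun e => e ▸ k⟩

omit [IsAlgClosed C] in
/-- **the Galois action on a fibre** -/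
theorem gal_fib (hN : Lv N) {Γ' : Subgroup SL(2, ℤ)} (h : Gamma N ≤ Γ) [CFF Qb (L Γ)]
    [CFF Qb (L Γ')] {s : GQ} (σ : C →+* C) (h1 : ∀ a, ‖σ a‖ = ‖a‖) (h2 : ∀ a, σ (ι a) = ι (s a))
    {k b : ℤ} (hk : Cyc N s k) {γ' : SL(2, ℤ)} (hγ : Tw N k γ γ')
    (hb : σ t = ι (E (b / N)) * t) (φ : L Γ ≃+* L Γ') (hφ : ∀ z, ((φ z : L Γ') : FF) = X.gal s z)
    {P : Plk Qb (L Γ)} {P' : Plk Qb (L Γ')} (hP : ∀ z, φ z ∈ P'.1 ↔ z ∈ P.1)
    (k : At ι N t (eg X γ Γ) P) : At ι N t (eg X (γ' * ModularGroup.T ^ b) Γ') P' := by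
  have := k.conj (e' := eg X γ' Γ') X hN.pos σ h1 h2 φ (fun a => Subtype.ext ((hφ _).trans
    ((x_galx X).2.1 s a))) (fun z => by
      rw [eg_apply, eg_apply, hφ, (x_shim X N hN s _ hk).2 γ γ' hγ _
        (L_Gt X N ▸ L_mono h z.2)]) hP
  rw [hb] at this
  rw [← eg_comp]
  exact this.tr X hN.pos b

end Vale.Agent.P014T.Dc
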