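import Vale.Agent.P014T.Dc.Vq
import Vale.Agent.P022K.QT.Cu1
import Vale.Agent.P004Z.EF.Gen

/-!
# P014T, block DISC: the modular invariant on the punctured disc

`jF : FF` is the modular invariant, `jS` its expansion, `jv q` its value at `q`.
-/

set_option linter.all false

noncomputable section

open PowerSeries LaurentSeries Filter Topology Vale.Agent.P022K.FI Vale.Agent.P022K.QT
open scoped MatrixGroups

namespace Vale.Agent.P014T.Dc

section ser

open UpperHalfPlane ModularForm Vale.Agent.P022 Vale.Agent.P022.H218.L3 Vale.Agent.P022.H231.L3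
  Vale.Agent.P022.H236.L3 Vale.Agent.P027M.M

theorem exJ1 : ∃ J : PowerSeries ℤ, constantCoeff J = 1 ∧ ExM 1 (ls (-1) (toCi J)) jM := by
  have e : qExpansion 1 (discriminant : ℍ → ℂ) = toCi H790.A.DZ := H790.A.qExp_disc
  have h0 : coeff 0 H790.A.DZ = 0 := by
    have h := congrArg (coeff 0) H790.A.qExp_disc
    rw [CuspFormClass.qExpansion_coeff_zero CuspForm.discriminant one_pos
      one_mem_strictPeriods_SL, H790.A.toC, coeff_map] at h
    simpa using h.symm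
  have h1 : coeff 1 H790.A.DZ = 1 := by
    have h := congrArg (coeff 1) e
    rw [discriminant_qExpansion_coeff_one, coeff_map] at h
    exact_mod_cast (show ((coeff 1 H790.A.DZ : ℤ) : ℂ) = 1 from h.symm)
  obtain ⟨u, hu⟩ : (X : PowerSeries ℤ) ∣ H790.A.DZ := X_dvd_iff.2 (by simpa using h0)
  have hc : constantCoeff u = 1 := by
    rw [hu, show (1 : ℕ) = 0 + 1 from rfl, coeff_succ_X_mul] at h1
    simpa using h1
  have hD : ExL 1 (ls 1 (toCi u)) discriminant := by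
    have := isMF_exL (N := 1) one_ne_zero (Subgroup.mem_top _) isMF_disc
    rw [Nat.cast_one, e, hu] at this
    have e2 := ls_X_pow 0 1 (toCi u)
    rw [pow_one, zero_add, Nat.cast_one] at e2
    rw [← e2]
    simpa [ls, toCi] using this
  have n0 : ls 1 (toCi u) ≠ 0 := hD.ne_zero isMF_disc.hol disc_ne
  obtain ⟨J, hJ⟩ := div_ls (E4i ^ 3) u 0 1 (hc ▸ isUnit_one)
  have h3 : ls 0 (toCi E4i) ^ 3 = ls 0 (toCi (E4i ^ 3)) := by
    rw [pow_three, ls_mul, ls_mul, pow_three]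
    simp only [toCi, map_mul, add_zero]
  refine ⟨J, ?_, ExL.exM_inc _ ?_⟩
  · rw [div_eq_iff n0, ls_mul] at hJ
    have := congrArg constantCoeff (ls_inj (m := 0) hJ)
    have k : ∀ A : PowerSeries ℤ, constantCoeff (toCi A) = ((constantCoeff A : ℤ) : ℂ) := fun A => by
      rw [← coeff_zero_eq_constantCoeff_apply, coeff_map, coeff_zero_eq_constantCoeff_apply]
      rfl
    have e4 : constantCoeff E4i = 1 := by
      rw [← coeff_zero_eq_constantCoeff_apply, E4i, coeff_mk, if_pos rfl]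
    rw [map_mul, k, k, k, hc, map_pow, e4, one_pow, Int.cast_one, mul_one] at this
    exact_mod_cast this.symm
  · have := (exL_E4_one.pow 3).div one_ne_zero hD n0
    rw [h3, hJ] at this
    exact this

/-- `q j(q)` -/
def JZ : PowerSeries ℤ := exJ1.choose

theorem JZ_zero : constantCoeff JZ = 1 := exJ1.choose_spec.1

/-- `q j(q)` with coefficients in `A` -/
def JP (A : Type) [Field A] : A⟦X⟧ := PowerSeries.map (Int.castRingHom A) JZ

/-- the expansion of `j` -/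
def jS (A : Type) [Field A] : A⸨X⸩ := am A (JP A) / am A X

theorem map_JP {A B : Type} [Field A] [Field B] (σ : A →+* B) : PowerSeries.map σ (JP A) = JP B := by
  ext n
  simp [JP]

theorem mp_jS {A B : Type} [Field A] [Field B] (σ : A →+* B) : Cu.mp σ (jS A) = jS B := by
  rw [jS, map_div₀, Cu.mp_am, Cu.mp_am, map_JP, map_X, jS]

theorem JP_zero (A : Type) [Field A] : constantCoeff (JP A) = 1 := by
  rw [← coeff_zero_eq_constantCoeff_apply, JP, coeff_map, coeff_zero_eq_constantCoeff_apply,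
    JZ_zero, map_one]

theorem order_jS (A : Type) [Field A] : (jS A).order = -1 := by
  have h : constantCoeff (JP A) ≠ 0 := by rw [JP_zero]; exact one_ne_zero
  rw [jS, order_div (am_ne fun e => h (by rw [e, map_zero])) (am_ne X_ne_zero), order_am_X,
    order_am_eq_zero h, zero_sub]

theorem ioL_jS : ioL (jS Qb) = ls (-1) (toCi JZ) := by
  refine (mp_jS (io : Qb →+* ℂ)).trans ?_
  rw [jS, div_eq_iff (am_ne X_ne_zero), ls, mul_right_comm,
    show am ℂ X = HahnSeries.single 1 1 from HahnSeries.ofPowerSeries_X,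
    HahnSeries.single_mul_single, neg_add_cancel, mul_one]
  exact (one_mul _).symm

theorem exM_jS : ExM 1 (ioL (jS Qb)) jM := by
  rw [ioL_jS]; exact exJ1.choose_spec.2

/-- **the modular invariant** -/
def jF : FF := mkF jM ⟨1, one_pos, MF_mono le_top jM_mem, _, exM_jS, alg_iff.2 ⟨_, rfl⟩⟩

theorem cv_jF : cv jF = jM := rfl

theorem ex_jF : Cu.Ex 1 jF (jS Qb) := exM_jS

theorem jF_mem (Γ : Subgroup SL(2, ℤ)) : jF ∈ L Γ := fun γ _ =>
  act_eq_self jM_mem (Subgroup.mem_top γ)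

theorem jF_ne (a : Qb) : jF ≠ algebraMap Qb FF a := fun e =>
  jM_ne_const (io a) (by rw [← cv_jF, e, cv_alg])

theorem pg_jF (X : Mdl) (γ : SL(2, ℤ)) : X.pg γ jF = jF :=
  cv_inj (by rw [Bc.cv_pg, cv_jF]; exact act_eq_self jM_mem (Subgroup.mem_top _))

theorem gal_jF (X : Mdl) (s : GQ) : X.gal s jF = jF := by
  have := ex_jF.gal X one_pos s
  rw [mp_jS] at this
  exact this.inj one_pos ex_jF

theorem L_top : L ⊤ = IntermediateField.adjoin Qb {jF} :=
  sGenL sDesc ⊤ 1 one_pos le_top {jF} (by rw [Set.image_singleton, cv_jF, MF_top])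

end ser

variable {C : Type} [NontriviallyNormedField C] [IsUltrametricDist C] {q q' : C} {f : C⟦X⟧}

theorem ig_JP : Ig (JP C) := fun n => by
  rw [JP, coeff_map]
  exact IsUltrametricDist.norm_intCast_le_one C _

/-- the value of `j` -/
def jv (q : C) : C := ev q (JP C) / q

theorem vq_jS (h0 : q ≠ 0) (h1 : ‖q‖ < 1) [CompleteSpace C] : Vq q (jS C) (jv q) :=
  (ig_vq ig_JP h1).div (vq_X q) h0

theorem pow_lip (h : ‖q‖ ≤ 1) (h' : ‖q'‖ ≤ 1) (n : ℕ) : ‖q ^ n - q' ^ n‖ ≤ ‖q - q'‖ := by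
  induction n with
  | zero => simp
  | succ n ih =>
    rw [show q ^ (n + 1) - q' ^ (n + 1) = q * (q ^ n - q' ^ n) + (q - q') * q' ^ n by ring]
    refine (IsUltrametricDist.norm_add_le_max _ _).trans (max_le ?_ ?_)
    · rw [norm_mul]
      exact (mul_le_of_le_one_left (norm_nonneg _) h).trans ih
    · rw [norm_mul, norm_pow]
      exact mul_le_of_le_one_right (norm_nonneg _) (pow_le_one₀ (norm_nonneg _) h')

theorem norm_add_of_lt {a b : C} (h : ‖a‖ < ‖b‖) : ‖a + b‖ = ‖b‖ := by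
  rw [IsUltrametricDist.norm_add_eq_max_of_norm_ne_norm h.ne, max_eq_right h.le]

variable [CompleteSpace C]

/-- integral series are Lipschitz -/
theorem ig_lip (h : Ig f) (hq : ‖q‖ < 1) (hq' : ‖q'‖ < 1) : ‖ev q f - ev q' f‖ ≤ ‖q - q'‖ := by
  obtain ⟨r, h1, h2, h3, h4⟩ := exists_r hq hq'
  rw [ev, ev, ← (ev_summable h3 (h.cv h1 h2)).tsum_sub (ev_summable h4 (h.cv h1 h2))]
  refine IsUltrametricDist.norm_tsum_le_of_forall_le_of_nonneg (norm_nonneg _) fun n => ?_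
  rw [← smul_sub, norm_smul]
  exact (mul_le_of_le_one_left (norm_nonneg _) (h n)).trans (pow_lip hq.le hq'.le n)

theorem JP_near (h1 : ‖q‖ < 1) : ‖ev q (JP C) - 1‖ ≤ ‖q‖ := by
  have := ig_lip (q' := 0) (ig_JP (C := C)) h1 (by simp)
  rwa [ev_zero_left, JP_zero, map_one, sub_zero] at this

theorem norm_JP (h1 : ‖q‖ < 1) : ‖ev q (JP C)‖ = 1 := by
  rw [← sub_add_cancel (ev q (JP C)) 1, norm_add_of_lt, norm_one]
  rw [norm_one]
  exact (JP_near h1).trans_lt h1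

theorem jv_near (h0 : q ≠ 0) (h1 : ‖q‖ < 1) : ‖q * jv q - 1‖ ≤ ‖q‖ := by
  rw [jv, mul_div_cancel₀ _ h0]; exact JP_near h1

theorem norm_jv (h1 : ‖q‖ < 1) : ‖jv q‖ = ‖q‖⁻¹ := by rw [jv, norm_div, norm_JP h1, one_div]

theorem jv_map {C' : Type} [NontriviallyNormedField C'] (σ : C →+* C') (hσ : ∀ a, ‖σ a‖ = ‖a‖)
    (h1 : ‖q‖ < 1) : jv (σ q) = σ (jv q) := by
  obtain ⟨r, k1, k2, k3, -⟩ := exists_r h1 h1
  rw [jv, jv, map_div₀, ← ev_map σ hσ (ig_JP.cv k1 k2) k3, map_JP]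

theorem jv_sub (h0 : q ≠ 0) (h1 : ‖q‖ < 1) (h0' : q' ≠ 0) (h1' : ‖q'‖ < 1) :
    ‖jv q - jv q'‖ = ‖q - q'‖ / (‖q‖ * ‖q'‖) := by
  by_cases e : q = q'
  · simp [e]
  rw [show jv q - jv q' = (q' * (ev q (JP C) - ev q' (JP C)) + (q' - q) * ev q' (JP C)) / (q * q') by
    rw [jv, jv]; field_simp; ring, norm_div, norm_mul, norm_add_of_lt, norm_mul, norm_JP h1',
    mul_one, norm_sub_rev]
  rw [norm_mul, norm_mul, norm_JP h1', mul_one, norm_sub_rev q' q]
  exact (mul_le_mul_of_nonneg_left (ig_lip ig_JP h1 h1') (norm_nonneg _)).trans_lt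
    (mul_lt_of_lt_one_left (norm_pos_iff.2 (sub_ne_zero.2 e)) h1')

theorem jv_inj (h0 : q ≠ 0) (h1 : ‖q‖ < 1) (h0' : q' ≠ 0) (h1' : ‖q'‖ < 1) (h : jv q = jv q') :
    q = q' := by
  have := jv_sub h0 h1 h0' h1'
  rw [h, sub_self, norm_zero, eq_comm, div_eq_zero_iff] at this
  exact sub_eq_zero.1 (norm_eq_zero.1 (this.resolve_right
    (mul_ne_zero (norm_ne_zero_iff.2 h0) (norm_ne_zero_iff.2 h0'))))

/-- **the Tate parameter** -/
theorem ex_jv {a : C} (ha : 1 < ‖a‖) : ∃ q, q ≠ 0 ∧ ‖q‖ < 1 ∧ jv q = a := by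
  have a0 : a ≠ 0 := norm_pos_iff.1 (one_pos.trans ha)
  have r1 : ‖a⁻¹‖ < 1 := by rw [norm_inv]; exact inv_lt_one_of_one_lt₀ ha
  have hb : ∀ {x : C}, x ∈ Metric.closedBall (0 : C) ‖a⁻¹‖ → ‖x‖ < 1 := fun h =>
    (mem_closedBall_zero_iff.1 h).trans_lt r1
  have hm : Set.MapsTo (fun x => a⁻¹ * ev x (JP C)) (Metric.closedBall (0 : C) ‖a⁻¹‖)
      (Metric.closedBall (0 : C) ‖a⁻¹‖) := fun x hx => by
    rw [mem_closedBall_zero_iff, norm_mul, norm_JP (hb hx), mul_one]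
  have hc : ContractingWith ‖a⁻¹‖₊ (hm.restrict _ _ _) :=
    ⟨r1, LipschitzWith.of_dist_le_mul fun x y => by
      rw [Subtype.dist_eq, Subtype.dist_eq, dist_eq_norm, dist_eq_norm]
      show ‖a⁻¹ * ev x.1 (JP C) - a⁻¹ * ev y.1 (JP C)‖ ≤ _
      rw [← mul_sub, norm_mul]
      exact mul_le_mul_of_nonneg_left (ig_lip ig_JP (hb x.2) (hb y.2)) (norm_nonneg _)⟩
  obtain ⟨y, hy, h, -⟩ := hc.exists_fixedPoint' Metric.isClosed_closedBall.isComplete hm
    (Metric.mem_closedBall_self (norm_nonneg _)) (edist_ne_top _ _)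
  have e : a⁻¹ * ev y (JP C) = y := h
  have y0 : y ≠ 0 := fun e' => by
    have := norm_JP (hb hy)
    rw [(mul_eq_zero.1 (e.trans e')).resolve_left (inv_ne_zero a0), norm_zero] at this
    exact zero_ne_one this
  refine ⟨y, y0, hb hy, ?_⟩
  rw [jv, div_eq_iff y0]
  exact (inv_mul_eq_iff_eq_mul₀ a0).1 e

theorem jv_fix (σ : C →+* C) (hσ : ∀ a, ‖σ a‖ = ‖a‖) (h0 : q ≠ 0) (h1 : ‖q‖ < 1)
    (h : σ (jv q) = jv q) : σ q = q :=
  jv_inj ((_root_.map_ne_zero σ).2 h0) (by rwa [hσ]) h0 h1 (by rw [jv_map σ hσ h1, h])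

/-- parameters with a rational invariant are dense -/
theorem ex_jv_near {S : Set C} (h0 : q ≠ 0) (h1 : ‖q‖ < 1) (hS : jv q ∈ closure S) {ε : ℝ}
    (hε : 0 < ε) : ∃ q', q' ≠ 0 ∧ ‖q'‖ = ‖q‖ ∧ ‖q' - q‖ < ε ∧ jv q' ∈ S := by
  obtain ⟨a, ha, h2⟩ := Metric.mem_closure_iff.1 hS (min ε 1) (lt_min hε one_pos)
  rw [dist_comm, dist_eq_norm] at h2
  have p0 := norm_pos_iff.2 h0
  have j1 : 1 < ‖jv q‖ := by rw [norm_jv h1]; exact (one_lt_inv₀ p0).2 h1
  have e : ‖a‖ = ‖jv q‖ := by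
    rw [← sub_add_cancel a (jv q), norm_add_of_lt ((h2.trans_le (min_le_right _ _)).trans j1)]
  obtain ⟨q', k0, k1, k2⟩ := ex_jv (e ▸ j1 : 1 < ‖a‖)
  have e' : ‖q'‖ = ‖q‖ := inv_injective (by rw [← norm_jv k1, ← norm_jv h1, k2, e])
  refine ⟨q', k0, e', ?_, k2 ▸ ha⟩
  have := jv_sub k0 k1 h0 h1
  rw [k2, eq_div_iff (by rw [e']; positivity)] at this
  rw [← this]
  refine lt_of_le_of_lt (mul_le_of_le_one_right (norm_nonneg _) ?_) (h2.trans_le (min_le_left _ _))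
  exact mul_le_one₀ k1.le (norm_nonneg _) h1.le

end Vale.Agent.P014T.Dc
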