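import Vale.Agent.P022K.QT.Cu0
import Vale.Agent.P027M.K.Loc

/-!
# P014T, block DISC: values of Laurent series at the points of a disc

`Vq q s c`: the Laurent series `s` is meromorphic on a closed disc containing `q`, regular at `q`
with the value `c`.  `Mq q s`: `s` is meromorphic on a closed disc containing `q`.
`Pa ι θ q P`: the place `P` of a function field is evaluation at `q` of the expansion `θ`.
-/

set_option linter.all false

noncomputable section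

open PowerSeries LaurentSeries Filter Topology Vale.Agent.P022K.FI Vale.Agent.P022K.QT
open P027M.K (Val exists_val)

namespace Vale.Agent.P014T.Dc

variable {C : Type} [NontriviallyNormedField C] [IsUltrametricDist C]

/-- `s` has the value `c` at `q` -/
def Vq (q : C) (s : C⸨X⸩) (c : C) : Prop :=
  ∃ (r : ℝ) (a b : C⟦X⟧), 0 < r ∧ ‖q‖ ≤ r ∧ Cv r a ∧ Cv r b ∧ ev q b ≠ 0 ∧
    s * am C b = am C a ∧ ev q a = c * ev q b

/-- `s` is meromorphic on a closed disc containing `q` -/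
def Mq (q : C) (s : C⸨X⸩) : Prop := ∃ r : ℝ, 0 < r ∧ ‖q‖ ≤ r ∧ s ∈ MM C r

variable {q c d : C} {s t : C⸨X⸩} {r : ℝ} {f g : C⟦X⟧}

omit [IsUltrametricDist C] in
theorem ev_zero (q : C) : ev q (0 : C⟦X⟧) = 0 := by simp [ev]

omit [IsUltrametricDist C] in
theorem ne_of_ev (h : ev q f ≠ 0) : f ≠ 0 := fun e => h (e ▸ ev_zero q)

theorem norm_ev_le' {M : ℝ} (hM : 0 ≤ M) (h : ∀ n, ‖coeff n f‖ * ‖q‖ ^ n ≤ M) : ‖ev q f‖ ≤ M :=
  IsUltrametricDist.norm_tsum_le_of_forall_le_of_nonneg hM fun n =>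
    (ev_term_le le_rfl f n).trans (h n)

/-- the tail of an integral series -/
theorem ig_tail (h : Ig f) (hq : ‖q‖ ≤ 1) {K : ℕ} (h0 : ∀ n < K, coeff n f = 0) :
    ‖ev q f‖ ≤ ‖q‖ ^ K :=
  norm_ev_le' (by positivity) fun n => by
    rcases lt_or_ge n K with e | e
    · rw [h0 n e, norm_zero, zero_mul]; positivity
    · exact (mul_le_of_le_one_left (by positivity) (h n)).trans
        (pow_le_pow_of_le_one (norm_nonneg _) hq e)

omit [IsUltrametricDist C] in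
theorem ev_rescale (ξ q : C) (f : C⟦X⟧) : ev q (rescale ξ f) = ev (ξ * q) f :=
  tsum_congr fun n => by rw [coeff_rescale, smul_eq_mul, smul_eq_mul, mul_pow]; ring

omit [IsUltrametricDist C] in
theorem ev_expand {a : ℕ} (ha : a ≠ 0) (q : C) (f : C⟦X⟧) : ev q (expand a ha f) = ev (q ^ a) f := by
  have inj : Function.Injective fun n : ℕ => a * n := mul_right_injective₀ ha
  rw [ev, ev, ← inj.tsum_eq]
  · exact tsum_congr fun n => by rw [coeff_expand_mul, pow_mul]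
  · intro n hn
    by_contra e
    refine hn ?_
    show coeff n (expand a ha f) • q ^ n = 0
    rw [coeff_expand_of_not_dvd _ _ _ fun ⟨m, hm⟩ => e ⟨m, hm.symm⟩, zero_smul]

omit [IsUltrametricDist C] in
theorem cv_rescale {l : C} {ρ : ℝ} (hf : Cv r f) (hs : 0 < ρ) (h : ‖l‖ * ρ ≤ r) :
    Cv ρ (rescale l f) :=
  Cv.of_le hs hf fun n => by
    rw [coeff_rescale, norm_mul, norm_pow, mul_comm (‖l‖ ^ n), mul_assoc, ← mul_pow]
    gcongr

omit [IsUltrametricDist C] in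
theorem cv_expand {a : ℕ} (ha : a ≠ 0) {ρ : ℝ} (hf : Cv r f) (hs : 0 < ρ) (h : ρ ^ a ≤ r) :
    Cv ρ (expand a ha f) := by
  have h1 : Tendsto (fun n : ℕ => n / a) atTop atTop := Nat.tendsto_div_const_atTop ha
  refine Cv.of_le hs (Tendsto.comp hf h1) fun n => ?_
  by_cases e : a ∣ n
  · obtain ⟨m, rfl⟩ := e
    simp only [Function.comp, Nat.mul_div_cancel_left _ (Nat.pos_of_ne_zero ha)]
    rw [coeff_expand_mul, pow_mul]
    gcongr
  · rw [coeff_expand_of_not_dvd _ _ _ e, norm_zero, zero_mul]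
    have : 0 ≤ r := (pow_pos hs a).le.trans h
    simp only [Function.comp]
    positivity

omit [IsUltrametricDist C] in
theorem ex_rad {ξ : C} {a : ℕ} (ha : a ≠ 0) (hr : 0 < r) (h : ‖ξ * q ^ a‖ ≤ r) :
    ∃ ρ : ℝ, 0 < ρ ∧ ‖q‖ ≤ ρ ∧ ‖ξ‖ * ρ ^ a ≤ r := by
  by_cases q0 : q = 0
  · have h1 : Tendsto (fun ρ : ℝ => ‖ξ‖ * ρ ^ a) (𝓝[>] 0) (𝓝 (‖ξ‖ * 0 ^ a)) :=
      (Continuous.tendsto (by fun_prop) 0).mono_left nhdsWithin_le_nhds
    rw [zero_pow ha, mul_zero] at h1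
    obtain ⟨ρ, h2, h3⟩ := ((h1.eventually (ge_mem_nhds hr)).and self_mem_nhdsWithin).exists
    exact ⟨ρ, h3, by rw [q0, norm_zero]; exact le_of_lt h3, h2⟩
  · exact ⟨‖q‖, norm_pos_iff.2 q0, le_rfl, by rwa [norm_mul, norm_pow] at h⟩

theorem Vq.mq (h : Vq q s c) : Mq q s := by
  obtain ⟨r, a, b, h1, h2, h3, h4, h5, h6, -⟩ := h
  exact ⟨r, h1, h2, a, b, h3, h4, ne_of_ev h5, eq_div_of_mul_eq (am_ne (ne_of_ev h5)) h6⟩

theorem mq_of (hr : 0 < r) (hq : ‖q‖ ≤ r) (h : s ∈ MM C r) : Mq q s := ⟨r, hr, hq, h⟩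

theorem Mq.two (h : Mq q s) (h' : Mq q t) : ∃ r, 0 < r ∧ ‖q‖ ≤ r ∧ s ∈ MM C r ∧ t ∈ MM C r := by
  obtain ⟨r, h1, h2, h3⟩ := h
  obtain ⟨r', h1', h2', h3'⟩ := h'
  have := lt_min h1 h1'
  exact ⟨min r r', this, le_min h2 h2', MM_anti this (min_le_left _ _) h3,
    MM_anti this (min_le_right _ _) h3'⟩

theorem Mq.add (h : Mq q s) (h' : Mq q t) : Mq q (s + t) := by
  obtain ⟨r, h1, h2, h3, h4⟩ := h.two h'
  exact ⟨r, h1, h2, add_mem h3 h4⟩

theorem Mq.mul (h : Mq q s) (h' : Mq q t) : Mq q (s * t) := by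
  obtain ⟨r, h1, h2, h3, h4⟩ := h.two h'
  exact ⟨r, h1, h2, mul_mem h3 h4⟩

theorem Mq.inv (h : Mq q s) : Mq q s⁻¹ := by
  obtain ⟨r, h1, h2, h3⟩ := h
  exact ⟨r, h1, h2, inv_mem h3⟩

theorem Mq.anti (h : Mq q s) {q' : C} (e : ‖q'‖ ≤ ‖q‖) : Mq q' s := by
  obtain ⟨r, h1, h2, h3⟩ := h
  exact ⟨r, h1, e.trans h2, h3⟩

theorem fac_mq {D : C →₀ ℤ} (h : Fac s c D) (hq : ‖q‖ < 1) : Mq q s := by
  obtain ⟨r, h1, h2, h3, -⟩ := exists_r hq hq
  exact ⟨r, h1, h3, h.mem h1 h2⟩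

theorem cv_vq (h : Cv r f) (hr : 0 < r) (hq : ‖q‖ ≤ r) : Vq q (am C f) (ev q f) :=
  ⟨r, f, 1, hr, hq, h, cv_one r, by simpa using (ev_C (C := C) q 1).symm ▸ one_ne_zero,
    by rw [map_one, mul_one], by
      rw [show ev q (1 : C⟦X⟧) = 1 by simpa using ev_C (C := C) q 1, mul_one]⟩

theorem ig_vq (h : Ig f) (hq : ‖q‖ < 1) : Vq q (am C f) (ev q f) := by
  obtain ⟨r, h1, h2, h3, -⟩ := exists_r hq hq
  exact cv_vq (h.cv h1 h2) h1 h3

theorem vq_poly (q : C) (P : Polynomial C) : Vq q (am C P) (P.eval q) := by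
  have := cv_vq (q := q) (cv_poly (‖q‖ + 1) P) (by positivity) (by linarith)
  rwa [ev_poly, Polynomial.coe_aeval_eq_eval] at this

theorem vq_const (q c : C) : Vq q (algebraMap C C⸨X⸩ c) c := by
  simpa [am_C] using vq_poly q (Polynomial.C c)

theorem vq_X (q : C) : Vq q (am C X) q := by simpa using vq_poly q Polynomial.X

theorem vq_one (q : C) : Vq q 1 1 := by simpa using vq_const q 1

theorem vq_zero (q : C) : Vq q 0 0 := by simpa using vq_const q 0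

theorem vq_nat (q : C) (n : ℕ) : Vq q n n := by simpa using vq_const q n

theorem vq_int (q : C) (n : ℤ) : Vq q n n := by simpa using vq_const q n

/-- substitution `X ↦ ξ X` -/
theorem Vq.rs {ξ : C} (h0 : ξ ≠ 0) (h : Vq (ξ * q) s c) : Vq q (Cu.rs ξ h0 s) c := by
  obtain ⟨r, a, b, h1, h2, h3, h4, h5, h6, h7⟩ := h
  obtain ⟨ρ, k1, k2, k3⟩ := ex_rad (ξ := ξ) (q := q) one_ne_zero h1 (by rwa [pow_one])
  rw [pow_one] at k3
  exact ⟨ρ, _, _, k1, k2, cv_rescale h3 k1 k3, cv_rescale h4 k1 k3, by rwa [ev_rescale],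
    by rw [← Cu.rs_am h0, ← Cu.rs_am h0, ← map_mul, h6], by rwa [ev_rescale, ev_rescale]⟩

/-- substitution `X ↦ X ^ a` -/
theorem Vq.ex {a : ℕ} (ha : 0 < a) (h : Vq (q ^ a) s c) : Vq q (Cu.ex a ha s) c := by
  obtain ⟨r, u, b, h1, h2, h3, h4, h5, h6, h7⟩ := h
  obtain ⟨ρ, k1, k2, k3⟩ := ex_rad (ξ := 1) (q := q) ha.ne' h1 (by rwa [one_mul])
  rw [norm_one, one_mul] at k3
  exact ⟨ρ, _, _, k1, k2, cv_expand ha.ne' h3 k1 k3, cv_expand ha.ne' h4 k1 k3,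
    by rwa [ev_expand], by rw [← Cu.ex_am ha, ← Cu.ex_am ha, ← map_mul, h6],
    by rwa [ev_expand, ev_expand]⟩

theorem Vq.exrs {ξ : C} (h0 : ξ ≠ 0) {a : ℕ} (ha : 0 < a) (h : Vq (ξ * q ^ a) s c) :
    Vq q (Cu.ex a ha (Cu.rs ξ h0 s)) c := (h.rs h0).ex ha

variable [CompleteSpace C]

theorem ev_map {C' : Type} [NontriviallyNormedField C'] (σ : C →+* C') (h1 : ∀ a, ‖σ a‖ = ‖a‖)
    (hf : Cv r f) (hq : ‖q‖ ≤ r) : ev (σ q) (PowerSeries.map σ f) = σ (ev q f) := by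
  have := ((ev_summable hq hf).hasSum.map σ
    (AddMonoidHomClass.isometry_of_norm σ h1).continuous).tsum_eq
  rw [ev, ev, ← this]
  exact tsum_congr fun n => by simp

/-- isometric homomorphisms -/
theorem Vq.mp {C' : Type} [NontriviallyNormedField C'] [IsUltrametricDist C'] (σ : C →+* C')
    (hσ : ∀ a, ‖σ a‖ = ‖a‖) (h : Vq q s c) : Vq (σ q) (Cu.mp σ s) (σ c) := by
  obtain ⟨r, a, b, h1, h2, h3, h4, h5, h6, h7⟩ := h
  refine ⟨r, PowerSeries.map σ a, PowerSeries.map σ b, h1, by rwa [hσ], by simpa [Cv, hσ] using h3,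
    by simpa [Cv, hσ] using h4, ?_, by rw [← Cu.mp_am, ← Cu.mp_am, ← map_mul, h6], ?_⟩
  · rw [ev_map σ hσ h4 h2]
    exact (_root_.map_ne_zero σ).2 h5
  · rw [ev_map σ hσ h3 h2, ev_map σ hσ h4 h2, h7, map_mul]

omit [CompleteSpace C] in
theorem Vq.two (h : Vq q s c) (h' : Vq q t d) : ∃ (r : ℝ) (a b a' b' : C⟦X⟧), 0 < r ∧ ‖q‖ ≤ r ∧
    Cv r a ∧ Cv r b ∧ Cv r a' ∧ Cv r b' ∧ ev q b ≠ 0 ∧ ev q b' ≠ 0 ∧ s * am C b = am C a ∧
    t * am C b' = am C a' ∧ ev q a = c * ev q b ∧ ev q a' = d * ev q b' := by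
  obtain ⟨r, a, b, h1, h2, h3, h4, h5, h6, h7⟩ := h
  obtain ⟨r', a', b', h1', h2', h3', h4', h5', h6', h7'⟩ := h'
  have := lt_min h1 h1'
  exact ⟨min r r', a, b, a', b', this, le_min h2 h2', h3.mono this (min_le_left _ _),
    h4.mono this (min_le_left _ _), h3'.mono this (min_le_right _ _),
    h4'.mono this (min_le_right _ _), h5, h5', h6, h6', h7, h7'⟩

theorem Vq.uniq (h : Vq q s c) (h' : Vq q s d) : c = d := by
  obtain ⟨r, a, b, a', b', h1, h2, h3, h4, h5, h6, h7, h8, e1, e2, e3, e4⟩ := h.two h'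
  have e : a * b' = a' * b := am_inj (by rw [map_mul, map_mul, ← e1, ← e2]; ring)
  have := congrArg (ev q) e
  rw [ev_mul h1 h2 h3 h6, ev_mul h1 h2 h5 h4, e3, e4] at this
  exact mul_right_cancel₀ (mul_ne_zero h7 h8) (by linear_combination this)

theorem Vq.add (h : Vq q s c) (h' : Vq q t d) : Vq q (s + t) (c + d) := by
  obtain ⟨r, a, b, a', b', h1, h2, h3, h4, h5, h6, h7, h8, e1, e2, e3, e4⟩ := h.two h'
  refine ⟨r, a * b' + a' * b, b * b', h1, h2, (h3.mul h6).add (h5.mul h4), h4.mul h6, ?_, ?_, ?_⟩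
  · rw [ev_mul h1 h2 h4 h6]; exact mul_ne_zero h7 h8
  · rw [map_add, map_mul, map_mul, map_mul, ← e1, ← e2]; ring
  · rw [ev_add h2 (h3.mul h6) (h5.mul h4), ev_mul h1 h2 h3 h6, ev_mul h1 h2 h5 h4,
      ev_mul h1 h2 h4 h6, e3, e4]; ring

theorem Vq.mul (h : Vq q s c) (h' : Vq q t d) : Vq q (s * t) (c * d) := by
  obtain ⟨r, a, b, a', b', h1, h2, h3, h4, h5, h6, h7, h8, e1, e2, e3, e4⟩ := h.two h'
  refine ⟨r, a * a', b * b', h1, h2, h3.mul h5, h4.mul h6, ?_, ?_, ?_⟩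
  · rw [ev_mul h1 h2 h4 h6]; exact mul_ne_zero h7 h8
  · rw [map_mul, map_mul, ← e1, ← e2]; ring
  · rw [ev_mul h1 h2 h3 h5, ev_mul h1 h2 h4 h6, e3, e4]; ring

theorem Vq.neg (h : Vq q s c) : Vq q (-s) (-c) := by
  simpa using (vq_const q (-1)).mul h

theorem Vq.sub (h : Vq q s c) (h' : Vq q t d) : Vq q (s - t) (c - d) := by
  rw [sub_eq_add_neg, sub_eq_add_neg]; exact h.add h'.neg

omit [CompleteSpace C] in
theorem Vq.inv (h : Vq q s c) (hc : c ≠ 0) : Vq q s⁻¹ c⁻¹ := by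
  obtain ⟨r, a, b, h1, h2, h3, h4, h5, h6, h7⟩ := h
  have a0 : ev q a ≠ 0 := h7 ▸ mul_ne_zero hc h5
  have s0 : s ≠ 0 := fun e => am_ne (ne_of_ev a0) (by rw [← h6, e, zero_mul])
  exact ⟨r, b, a, h1, h2, h4, h3, a0, by rw [← h6, inv_mul_cancel_left₀ s0],
    by rw [h7, inv_mul_cancel_left₀ hc]⟩

theorem Vq.div (h : Vq q s c) (h' : Vq q t d) (hd : d ≠ 0) : Vq q (s / t) (c / d) := by
  rw [div_eq_mul_inv, div_eq_mul_inv]; exact h.mul (h'.inv hd)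

theorem Vq.pow (h : Vq q s c) (n : ℕ) : Vq q (s ^ n) (c ^ n) := by
  induction n with
  | zero => rw [pow_zero, pow_zero]; exact vq_one q
  | succ n ih => rw [pow_succ, pow_succ]; exact ih.mul h

theorem Vq.zpow (h : Vq q s c) {n : ℤ} (hc : c ≠ 0 ∨ 0 ≤ n) : Vq q (s ^ n) (c ^ n) := by
  rcases le_or_gt 0 n with e | e
  · obtain ⟨m, rfl⟩ := Int.eq_ofNat_of_zero_le e
    simpa using h.pow m
  · obtain ⟨m, rfl⟩ := Int.exists_eq_neg_ofNat e.le
    simpa using (h.inv (hc.resolve_right (not_le.2 e))).pow m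

theorem Vq.ne (h : Vq q s c) (hc : c ≠ 0) : s ≠ 0 := fun e => hc (h.uniq (e ▸ vq_zero q))

theorem vq_prod {ι : Type*} (S : Finset ι) {z : ι → C⸨X⸩} {v : ι → C}
    (h : ∀ i ∈ S, Vq q (z i) (v i)) : Vq q (∏ i ∈ S, z i) (∏ i ∈ S, v i) := by
  classical
  induction S using Finset.induction_on with
  | empty => simpa using vq_one q
  | insert a S ha ih =>
    rw [Finset.prod_insert ha, Finset.prod_insert ha]
    exact (h a (Finset.mem_insert_self _ _)).mul (ih fun i hi => h i (Finset.mem_insert_of_mem hi))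

theorem vq_sum {ι : Type*} (S : Finset ι) {z : ι → C⸨X⸩} {v : ι → C}
    (h : ∀ i ∈ S, Vq q (z i) (v i)) : Vq q (∑ i ∈ S, z i) (∑ i ∈ S, v i) := by
  classical
  induction S using Finset.induction_on with
  | empty => simpa using vq_zero q
  | insert a S ha ih =>
    rw [Finset.sum_insert ha, Finset.sum_insert ha]
    exact (h a (Finset.mem_insert_self _ _)).add (ih fun i hi => h i (Finset.mem_insert_of_mem hi))

theorem Vq.aeval (h : Vq q s c) (P : Polynomial C) : Vq q (Polynomial.aeval s P) (P.eval c) := by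
  rw [Polynomial.aeval_eq_sum_range, Polynomial.eval_eq_sum_range]
  exact vq_sum _ fun i _ => by rw [Algebra.smul_def]; exact (vq_const q _).mul (h.pow i)

theorem Vq.not_inv (h : Vq q s c) (s0 : s ≠ 0) : ¬Vq q s⁻¹ 0 := fun h' => by
  have := h.mul h'
  rw [mul_inv_cancel₀ s0, mul_zero] at this
  exact one_ne_zero ((vq_one q).uniq this)

theorem vq_sub_iff : Vq q (s - algebraMap C C⸨X⸩ c) 0 ↔ Vq q s c :=
  ⟨fun h => by simpa using h.add (vq_const q c), fun h => by simpa using h.sub (vq_const q c)⟩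

theorem vq_pr {D : C →₀ ℤ} (h : 0 ≤ D q) : Vq q (pr D) (D.prod fun a n => (q - a) ^ n) :=
  vq_prod _ fun a _ => by
    have := (vq_X q).sub (vq_const q a)
    rw [← am_C, ← map_sub] at this
    refine this.zpow ?_
    by_cases e : q = a
    · exact Or.inr (e ▸ h)
    · exact Or.inl (sub_ne_zero.2 e)

/-- difference with a truncation -/
theorem ig_trunc (h : Ig f) (hq : ‖q‖ < 1) (K : ℕ) :
    ‖ev q f - (trunc K f).eval q‖ ≤ ‖q‖ ^ K := by
  obtain ⟨r, h1, h2, h3, -⟩ := exists_r hq hq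
  rw [← Polynomial.coe_aeval_eq_eval, ← ev_poly, ← ev_sub h3 (h.cv h1 h2) (cv_poly r _)]
  refine ig_tail (fun n => ?_) hq.le fun n hn => ?_
  · rw [map_sub, Polynomial.coeff_coe, coeff_trunc]
    split_ifs
    · simp
    · simpa using h n
  · rw [map_sub, Polynomial.coeff_coe, coeff_trunc, if_pos hn, sub_self]

variable [IsAlgClosed C]

theorem vq_of_od (hr : 0 < r) (hq : ‖q‖ ≤ r) (hs : s ∈ MM C r) (h : 0 ≤ od r q s) :
    ∃ c, Vq q s c ∧ (0 < od r q s → c = 0) ∧ (s ≠ 0 → od r q s = 0 → c ≠ 0) := by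
  by_cases s0 : s = 0
  · exact ⟨0, s0 ▸ vq_zero q, fun _ => rfl, fun e => (e s0).elim⟩
  obtain ⟨u, D, h1, h2, h3, -, h5, h6⟩ := fac hr hs s0
  rw [h6 q hq] at h ⊢
  refine ⟨_, h5 ▸ (cv_vq h1 hr hq).mul (vq_pr h), fun e => ?_, fun _ e => ?_⟩
  · refine mul_eq_zero_of_right _ (Finset.prod_eq_zero (Finsupp.mem_support_iff.2 e.ne') ?_)
    show (q - q) ^ D q = 0
    rw [sub_self, zero_zpow _ e.ne']
  · refine mul_ne_zero ((wd_eq_zero_iff hr h1 h2).1 h3 q hq) (Finset.prod_ne_zero_iff.2 fun a ha =>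
      zpow_ne_zero _ (sub_ne_zero.2 ?_))
    rintro rfl
    exact Finsupp.mem_support_iff.1 ha e

theorem Vq.od_nonneg (h : Vq q s c) (hr : 0 < r) (hq : ‖q‖ ≤ r) (hs : s ∈ MM C r) :
    0 ≤ od r q s := by
  by_contra e
  have s0 : s ≠ 0 := fun e' => e (by rw [e', od_zero hr hq])
  have h1 : 0 < od r q s⁻¹ := by rw [od_inv hr hq hs]; omega
  obtain ⟨d, h2, h3, -⟩ := vq_of_od hr hq (inv_mem hs) h1.le
  exact h.not_inv s0 (h3 h1 ▸ h2)

theorem Vq.od_pos (h : Vq q s 0) (s0 : s ≠ 0) (hr : 0 < r) (hq : ‖q‖ ≤ r) (hs : s ∈ MM C r) :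
    0 < od r q s := by
  have h1 := h.od_nonneg hr hq hs
  obtain ⟨d, h2, -, h3⟩ := vq_of_od hr hq hs h1
  exact lt_of_le_of_ne h1 fun e => h3 s0 e.symm (h2.uniq h)

theorem Vq.od_zero (h : Vq q s c) (hc : c ≠ 0) (hr : 0 < r) (hq : ‖q‖ ≤ r) (hs : s ∈ MM C r) :
    od r q s = 0 := by
  have h1 := h.od_nonneg hr hq hs
  have h2 := (h.inv hc).od_nonneg hr hq (inv_mem hs)
  rw [od_inv hr hq hs] at h2
  omega

/-- **value or pole** -/
theorem Mq.dich (h : Mq q s) : (∃ c, Vq q s c) ∨ Vq q s⁻¹ 0 := by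
  obtain ⟨r, hr, hq, hs⟩ := h
  rcases le_or_gt 0 (od r q s) with e | e
  · exact Or.inl ((vq_of_od hr hq hs e).imp fun _ h => h.1)
  · have h1 : 0 < od r q s⁻¹ := by rw [od_inv hr hq hs]; omega
    obtain ⟨d, h2, h3, -⟩ := vq_of_od hr hq (inv_mem hs) h1.le
    exact Or.inr (h3 h1 ▸ h2)

/-- a meromorphic function with a value at each point is holomorphic -/
theorem hol_vq (hr : 0 < r) (hs : s ∈ MM C r) (h : ∀ a : C, ‖a‖ ≤ r → ∃ c, Vq a s c) :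
    ∃ f, Cv r f ∧ s = am C f :=
  hol hr hs fun a ha => (h a ha).elim fun _ e => e.od_nonneg hr ha hs

/-- transfer of values along a homomorphism is an equivalence -/
theorem vq_iff {C' : Type} [NontriviallyNormedField C'] [IsUltrametricDist C'] [CompleteSpace C']
    (τ : C⸨X⸩ →+* C'⸨X⸩) (σ : C →+* C') {q' : C'}
    (h : ∀ s c, Vq q s c → Vq q' (τ s) (σ c)) (hs : Mq q s) :
    Vq q' (τ s) (σ c) ↔ Vq q s c := by
  refine ⟨fun h1 => ?_, h s c⟩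
  by_cases s0 : s = 0
  · rw [s0, map_zero] at h1
    rw [s0, (_root_.map_eq_zero σ).1 (h1.uniq (vq_zero q'))]
    exact vq_zero q
  rcases hs.dich with ⟨d, e⟩ | e
  · rwa [σ.injective (h1.uniq (h s d e))]
  · have := h _ _ e
    rw [map_inv₀, map_zero] at this
    exact (h1.not_inv ((_root_.map_ne_zero τ).2 s0) this).elim

theorem vq_exrs {ξ : C} (h0 : ξ ≠ 0) {a : ℕ} (ha : 0 < a) (hs : Mq (ξ * q ^ a) s) :
    Vq q (Cu.ex a ha (Cu.rs ξ h0 s)) c ↔ Vq (ξ * q ^ a) s c :=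
  vq_iff ((Cu.ex a ha).comp (Cu.rs ξ h0)) (RingHom.id C) (fun _ _ h => h.exrs h0 ha) hs

theorem vq_ex {a : ℕ} (ha : 0 < a) (hs : Mq (q ^ a) s) :
    Vq q (Cu.ex a ha s) c ↔ Vq (q ^ a) s c :=
  vq_iff (Cu.ex a ha) (RingHom.id C) (fun _ _ h => h.ex ha) hs

theorem vq_rs {ξ : C} (h0 : ξ ≠ 0) (hs : Mq (ξ * q) s) :
    Vq q (Cu.rs ξ h0 s) c ↔ Vq (ξ * q) s c :=
  vq_iff (Cu.rs ξ h0) (RingHom.id C) (fun _ _ h => h.rs h0) hs

theorem vq_mp {C' : Type} [NontriviallyNormedField C'] [IsUltrametricDist C'] [CompleteSpace C']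
    (σ : C →+* C') (hσ : ∀ a, ‖σ a‖ = ‖a‖) (hs : Mq q s) :
    Vq (σ q) (Cu.mp σ s) (σ c) ↔ Vq q s c :=
  vq_iff (Cu.mp σ) σ (fun _ _ h => h.mp σ hσ) hs

/-- **maximum modulus** -/
theorem gn_le_of_ev (hr : 0 < r) (hf : Cv r f) {b : C} (h : ∀ a : C, ‖a‖ ≤ r → ‖ev a f‖ < ‖b‖) :
    gn r f ≤ ‖b‖ := by
  have h1 := hf.sub (cv_C r b)
  have h2 : ∀ a : C, ‖a‖ ≤ r → ev a (f - PowerSeries.C b) = ev a f - b := fun a ha => by
    rw [ev_sub ha hf (cv_C r b), ev_C]; rfl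
  have h3 : wd r (f - PowerSeries.C b) = 0 := by
    by_contra e
    obtain ⟨a, ha, e⟩ := exists_zero hr h1 e
    rw [h2 a ha, sub_eq_zero] at e
    exact lt_irrefl _ (e ▸ h a ha)
  have z : ‖(0 : C)‖ ≤ r := by rw [norm_zero]; exact hr.le
  have h4 : gn r (f - PowerSeries.C b) ≤ ‖b‖ := by
    rw [← norm_ev_unit hr h1 h3 z, h2 0 z, sub_eq_add_neg]
    exact (IsUltrametricDist.norm_add_le_max _ _).trans (max_le (h 0 z).le (norm_neg b).le)
  rw [← sub_add_cancel f (PowerSeries.C b)]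
  exact (gn_add_le hr h1 (cv_C r b)).trans (max_le h4 (gn_C hr b).le)

/-! ## places -/

section pl

variable {F : Type*} [Field F]

/-- the valuation ring of the point `q` -/
def Oq (θ : F →+* C⸨X⸩) (q : C) (h : ∀ f, Mq q (θ f)) : ValuationSubring F where
  carrier := {f | ∃ c, Vq q (θ f) c}
  mul_mem' := fun ⟨c, h⟩ ⟨d, h'⟩ => ⟨c * d, by rw [map_mul]; exact h.mul h'⟩
  one_mem' := ⟨1, by rw [map_one]; exact vq_one q⟩
  add_mem' := fun ⟨c, h⟩ ⟨d, h'⟩ => ⟨c + d, by rw [map_add]; exact h.add h'⟩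
  zero_mem' := ⟨0, by rw [map_zero]; exact vq_zero q⟩
  neg_mem' := fun ⟨c, h⟩ => ⟨-c, by rw [map_neg]; exact h.neg⟩
  mem_or_inv_mem' f := (h f).dich.imp id fun e => ⟨0, by rwa [map_inv₀]⟩

variable {θ : F →+* C⸨X⸩} {h : ∀ f, Mq q (θ f)} {z : F}

theorem mem_Oq : z ∈ Oq θ q h ↔ ∃ c, Vq q (θ z) c := Iff.rfl

theorem Oq_lt : (Oq θ q h).valuation z < 1 ↔ Vq q (θ z) 0 := by
  by_cases z0 : z = 0
  · simpa [z0] using vq_zero q
  have k : (Oq θ q h).valuation z < 1 ↔ z⁻¹ ∉ Oq θ q h := by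
    rw [← ValuationSubring.valuation_le_one_iff, map_inv₀, not_le,
      one_lt_inv₀ (zero_lt_iff.2 ((_root_.map_ne_zero _).2 z0))]
  rw [k, mem_Oq, map_inv₀]
  refine ⟨fun e => ?_, fun e ⟨c, e'⟩ => e'.not_inv (inv_ne_zero ((_root_.map_ne_zero θ).2 z0))
    (by rwa [inv_inv])⟩
  have := (h z).inv.dich.resolve_left e
  rwa [inv_inv] at this

open Vale.Agent.P019P

variable {k : Type*} [Field k] [Algebra k F] [CFF k F]

omit [IsUltrametricDist C] [CompleteSpace C] [IsAlgClosed C] in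
theorem val_zero_iff {P : Plk k F} (z0 : z ≠ 0) : Val P z 0 ↔ z⁻¹ ∉ P.1 := by
  rw [P027M.K.Val.zero_iff, mem_Mge, mem_iff_ord, ord_inv, or_iff_right z0, or_iff_right (inv_ne_zero z0)]
  omega

omit [IsUltrametricDist C] [CompleteSpace C] [IsAlgClosed C] in
theorem mem_iff_val {P : Plk k F} : z ∈ P.1 ↔ ∃ c, Val P z c :=
  ⟨fun e => exists_val ((mem_iff_ord P z).1 e), fun ⟨_, e⟩ => (mem_iff_ord P z).2 e.mem⟩

/-- the place `P` is evaluation at `q` of the expansion `θ` -/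
def Pa (ι : k →+* C) (θ : F →+* C⸨X⸩) (q : C) (P : Plk k F) : Prop :=
  ∀ z c, Val P z c ↔ Vq q (θ z) (ι c)

variable {ι : k →+* C} {P P' : Plk k F}

omit [IsAlgClosed C] in
/-- one implication suffices -/
theorem pa_of (h : ∀ z c, Val P z c → Vq q (θ z) (ι c)) : Pa ι θ q P := fun z c => by
  refine ⟨h z c, fun h1 => ?_⟩
  by_cases e : z ∈ P.1
  · obtain ⟨d, e⟩ := mem_iff_val.1 e
    rwa [ι.injective (h1.uniq (h z d e))]
  · have z0 : z ≠ 0 := fun e' => e (e' ▸ zero_mem _)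
    have := h z⁻¹ 0 ((val_zero_iff (inv_ne_zero z0)).2 (by rwa [inv_inv]))
    rw [map_inv₀, map_zero] at this
    exact (h1.not_inv ((_root_.map_ne_zero θ).2 z0) this).elim

omit [IsAlgClosed C] in
/-- values are algebraic -/
theorem Pa.alg (h : Pa ι θ q P) (h1 : Vq q (θ z) c) : ∃ a, ι a = c ∧ Val P z a := by
  by_cases e : z ∈ P.1
  · obtain ⟨d, e⟩ := mem_iff_val.1 e
    exact ⟨d, ((h z d).1 e).uniq h1, e⟩
  · have z0 : z ≠ 0 := fun e' => e (e' ▸ zero_mem _)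
    have := (h z⁻¹ 0).1 ((val_zero_iff (inv_ne_zero z0)).2 (by rwa [inv_inv]))
    rw [map_inv₀, map_zero] at this
    exact (h1.not_inv ((_root_.map_ne_zero θ).2 z0) this).elim

omit [IsAlgClosed C] in
theorem Pa.mem (h : Pa ι θ q P) : z ∈ P.1 ↔ ∃ c, Vq q (θ z) c :=
  ⟨fun e => (mem_iff_val.1 e).elim fun c e => ⟨_, (h z c).1 e⟩,
    fun ⟨_, e⟩ => (h.alg e).elim fun a e => mem_iff_val.2 ⟨a, e.2⟩⟩

omit [IsAlgClosed C] in
theorem Pa.pole (h : Pa ι θ q P) (z0 : z ≠ 0) : z ∉ P.1 ↔ Vq q (θ z)⁻¹ 0 := by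
  rw [← map_inv₀, ← map_zero ι, ← h, val_zero_iff (inv_ne_zero z0), inv_inv]

omit [IsAlgClosed C] in
theorem Pa.uniq (h : Pa ι θ q P) (h' : Pa ι θ q P') : P = P' :=
  Subtype.ext (SetLike.ext fun z => h.mem.trans h'.mem.symm)

theorem ex_pa (h : ∀ z, Mq q (θ z)) (hc : ∀ a, θ (algebraMap k F a) = algebraMap C C⸨X⸩ (ι a))
    {a : k} (z0 : z ≠ algebraMap k F a) (hz : Vq q (θ z) (ι a)) : ∃ P, Pa ι θ q P := by
  have k1 : ∀ (z : F) (a : k), Vq q (θ (z - algebraMap k F a)) 0 ↔ Vq q (θ z) (ι a) := fun z a => by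
    rw [map_sub, hc, vq_sub_iff]
  have k2 : ∀ z : F, z ≠ 0 → (z⁻¹ ∉ Oq θ q h ↔ Vq q (θ z) 0) := fun z z0 => by
    rw [← Oq_lt (h := h), ← ValuationSubring.valuation_le_one_iff, map_inv₀, not_le,
      one_lt_inv₀ (zero_lt_iff.2 ((_root_.map_ne_zero _).2 z0))]
  obtain ⟨P, hP⟩ : ∃ P : Plk k F, P.1 = Oq θ q h :=
    ⟨⟨Oq θ q h, fun a => mem_Oq.2 ⟨_, by rw [hc]; exact vq_const q _⟩, fun e =>
      (k2 _ (sub_ne_zero.2 z0)).2 ((k1 z a).2 hz) (e ▸ ValuationSubring.mem_top _)⟩, rfl⟩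
  refine ⟨P, fun z a => ?_⟩
  rw [← k1]
  by_cases e : z - algebraMap k F a = 0
  · rw [Val, e, map_zero]
    exact ⟨fun _ => vq_zero q, fun _ => zero_mem _⟩
  · rw [← k2 _ e, Val, ← P027M.K.Val.zero_iff, val_zero_iff e, hP]

end pl

end Vale.Agent.P014T.Dc
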