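import Vale.Agent.P014T.Lc.Log
import Vale.Agent.P014T.Dc.Vq
import Vale.Agent.P022K.FA.Fa2
import Vale.Agent.P022K.FI.An2a

/-! # P014T, discs: the logarithm of a family of points is the integral of the differential -/

set_option linter.all false

open scoped Classical NNReal Topology LaurentSeries
open WeierstrassCurve WeierstrassCurve.Affine P179W Filter PowerSeries

noncomputable section

namespace Vale.Agent.P014T.Dc

open P022K.FI P022K.FA Lc

section alg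

variable {K : Type} [Field K] {Γ : Type} [LinearOrderedCommGroupWithZero Γ] {v : Valuation K Γ}
  {E : WeierstrassCurve K} (hc : CoeffIn E {z | v z ≤ 1})
include hc

theorem red_zf {R : Type} [Field R] {r : K → R} {Eb : WeierstrassCurve R} (h : Rd v r E Eb)
    (hD : v E.Δ = 1) (P : E.toAffine.Point)
    (hy : ∀ x y k, ptRed {z | v z ≤ 1} r Eb P = .some x y k → y ≠ 0) :
    v (zf P) ≤ 1 ∧ r (zf P) = zf (ptRed {z | v z ≤ 1} r Eb P) := by
  obtain ⟨h1, h2, -⟩ := ptRed_holds K Γ v E hc hD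
  obtain ⟨-, h3, -⟩ := h2 R r Eb h.one h.add h.mul h.zero h.a₁ h.a₂ h.a₃ h.a₄ h.a₆
  have r0 : r 0 = 0 := (h.zero 0 (by simp)).2 (by simp)
  rcases P with _ | ⟨x, y, k⟩
  · exact ⟨by simp [zf], r0⟩
  by_cases hx : v x ≤ 1
  · have e : ptRed {z | v z ≤ 1} r Eb (.some x y k) = .some _ _ (h3 x y k.1 hx) :=
      (if_pos hx).trans (pt_of _)
    have y1 := h1 x y k.1 hx
    have y0 := hy _ _ _ e
    have y2 : v y = 1 := y1.eq_of_not_lt fun l => y0 ((h.zero y y1).2 l)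
    have z1 : v (-x / y) ≤ 1 := by rwa [map_div₀, y2, div_one, Valuation.map_neg]
    refine ⟨z1, ?_⟩
    rw [e]
    change r (-x / y) = -r x / r y
    rw [eq_div_iff y0, ← h.mul _ _ z1 y1, div_mul_cancel₀ _ ((map_ne_zero v).1 (y2 ▸ one_ne_zero)),
      eq_neg_iff_add_eq_zero, ← h.add _ _ (by rwa [Valuation.map_neg]) hx, neg_add_cancel, r0]
  · have z1 := (bas hc k.1 (not_le.1 hx)).2.2.2
    have e : ptRed {z | v z ≤ 1} r Eb (.some x y k) = 0 := if_neg hx
    exact ⟨z1.le, e ▸ (h.zero _ z1.le).2 z1⟩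

theorem dz (δ : Derivation ℤ K K) {x y l : K} (h : E.toAffine.Equation x y) (hx : 1 < v x)
    (e1 : δ x = l * psi E x y) (e2 : δ y = l * phi E x y) :
    v (δ (-x / y) - l) ≤ v l * v (-x / y) := by
  obtain ⟨x0, y0, -, m⟩ := bas hc h hx
  obtain ⟨c1, c2, c3, c4, c6⟩ := hc
  have i : v x⁻¹ ≤ 1 := by rw [map_inv₀]; exact (inv_lt_one_of_one_lt₀ hx).le
  have e := δ.leibniz (-x / y) y
  rw [div_mul_cancel₀ _ y0, map_neg, e1, e2, smul_eq_mul, smul_eq_mul] at e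
  rw [equation_iff] at h
  have f : δ (-x / y) - l = l * ((-x / y) * -(E.a₁ + 2 * E.a₃ * x⁻¹ + E.a₂ * (-x / y) +
      2 * E.a₄ * (-x / y) * x⁻¹ + 3 * E.a₆ * (-x / y) * x⁻¹ ^ 2)) := by
    rw [show δ (-x / y) = (-(l * psi E x y) - -x / y * (l * phi E x y)) / y by
      rw [eq_div_iff y0]; linear_combination -e, psi, phi]
    field_simp
    linear_combination -3 * l * h
  rw [f, map_mul, map_mul, Valuation.map_neg]
  refine mul_le_mul_right (mul_le_of_le_one_right' ?_) _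
  replace m := m.le
  change _ ∈ v.integer at c1 c2 c3 c4 c6 m i ⊢
  apply_rules [add_mem, mul_mem, pow_mem, neg_mem, ofNat_mem]

end alg

section ser

variable {C : Type} [Field C] {s t : C⸨X⸩}

theorem c0_am (f : C⟦X⟧) : (am C f).coeff 0 = constantCoeff f := by
  simpa using coeff_am f 0

theorem c0_mul (hs : 0 ≤ s.order) (ht : 0 ≤ t.order) : (s * t).coeff 0 = s.coeff 0 * t.coeff 0 := by
  obtain ⟨f, rfl⟩ := exists_am hs
  obtain ⟨g, rfl⟩ := exists_am ht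
  rw [← map_mul, c0_am, c0_am, c0_am, map_mul]

theorem ol_le : (OL C).valuation s ≤ 1 ↔ 0 ≤ s.order :=
  ((OL C).valuation_le_one_iff s).trans mem_OL

theorem ol_lt (hs : 0 ≤ s.order) : s.coeff 0 = 0 ↔ (OL C).valuation s < 1 := by
  by_cases s0 : s = 0
  · simp [s0]
  have v0 : 0 < (OL C).valuation s := zero_lt_iff.2 ((map_ne_zero _).2 s0)
  rw [← not_le, ← inv_le_one₀ v0, ← map_inv₀, ol_le, order_inv]
  obtain ⟨f, rfl⟩ := exists_am hs
  rw [c0_am]
  refine ⟨fun h => ?_, fun h => by_contra fun e => h (by rw [order_am_eq_zero e]; rfl)⟩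
  have := order_am_pos (fun e => s0 (by simp [e])) h
  omega

theorem dL_ne [CharZero C] (h : s.order < 0) : dL s ≠ 0 := fun e => by
  have := congrArg (fun t => t.coeff (s.order - 1)) e
  simp only [LaurentSeries.derivative_apply, LaurentSeries.hasseDeriv_coeff, Ring.choose_one_right,
    Nat.cast_one, sub_add_cancel, HahnSeries.coeff_zero, zsmul_eq_mul, mul_eq_zero,
    Int.cast_eq_zero, HahnSeries.coeff_order_eq_zero] at this
  rcases this with a | a
  · omega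
  · simp [a] at h

end ser

variable {C : Type} [NontriviallyNormedField C] [IsUltrametricDist C] {r R ρ : ℝ} {c : C}
  {f g : C⟦X⟧} {s t : C⸨X⸩}

variable (C) in
/-- the Gauss valuation -/
def gv (hr : 0 < r) : Valuation (MM C r) ℝ≥0 where
  toFun s := ⟨nm r (s : C⸨X⸩), nm_nonneg hr _⟩
  map_zero' := NNReal.eq (mu_gn hr).lf_zero
  map_one' := NNReal.eq (mu_gn hr).lf_one
  map_mul' s t := NNReal.eq (nm_mul hr s.2 t.2)
  map_add_le_max' s t := by exact_mod_cast nm_add_le hr s.2 t.2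

theorem gv_coe (hr : 0 < r) (s : MM C r) : (gv C hr s : ℝ) = nm r (s : C⸨X⸩) := rfl

theorem gn_small (hf : Cv r f) (h0 : constantCoeff f = 0) (hρ : 0 < ρ) (h : ρ ≤ r) :
    gn ρ f ≤ ρ / r * gn r f := by
  have hr := hρ.trans_le h
  refine gn_le fun n => ?_
  cases n with
  | zero => simpa [h0] using mul_nonneg (by positivity) (gn_nonneg hr f)
  | succ n =>
    refine le_trans ?_ (mul_le_mul_of_nonneg_left (le_gn hf (n + 1)) (by positivity))
    rw [pow_succ, pow_succ, show ρ / r * (‖coeff (n + 1) f‖ * (r ^ n * r)) =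
      ‖coeff (n + 1) f‖ * (r ^ n * ρ) by field_simp]
    gcongr

variable [CompleteSpace C] [IsAlgClosed C]

/-- the valuation at a point of the disc -/
def pvl (hr : 0 < r) (hc : ‖c‖ ≤ r) : Valuation (MM C r) (OL C).ValueGroup :=
  (OL C).valuation.comap (mp_add hr hc).cmL.toRingHom

theorem pv_le (hr : 0 < r) (hc : ‖c‖ ≤ r) (s : MM C r) : pvl hr hc s ≤ 1 ↔ 0 ≤ od r c s := ol_le

theorem va_mul (hr : 0 < r) (hc : ‖c‖ ≤ r) (hs : s ∈ MM C r) (ht : t ∈ MM C r) (a : 0 ≤ od r c s)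
    (b : 0 ≤ od r c t) : va r c (s * t) = va r c s * va r c t := by
  rw [va, (mp_add hr hc).map_mul hs ht]
  exact c0_mul a b

theorem va_const (hr : 0 < r) (hc : ‖c‖ ≤ r) (d : C) : va r c (algebraMap C C⸨X⸩ d) = d := by
  rw [va, (mp_add hr hc).map_const, ← am_C, c0_am, constantCoeff_C]

theorem rd (hr : 0 < r) (hc : ‖c‖ ≤ r) (E : WeierstrassCurve C) :
    Rd (pvl hr hc) (fun s => va r c s) (E.map (algebraMap C (MM C r))) E where
  one := by simpa using va_const hr hc 1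
  add a b _ _ := by
    simp only [va]
    rw [AddMemClass.coe_add, (mp_add hr hc).map_add a.2 b.2, HahnSeries.coeff_add]
  mul a b h k := va_mul hr hc a.2 b.2 (ol_le.1 h) (ol_le.1 k)
  zero a h := ol_lt (ol_le.1 h)
  a₁ := (va_const hr hc _).symm
  a₂ := (va_const hr hc _).symm
  a₃ := (va_const hr hc _).symm
  a₄ := (va_const hr hc _).symm
  a₆ := (va_const hr hc _).symm

theorem pv_const (hr : 0 < r) (hc : ‖c‖ ≤ r) (d : C) : pvl hr hc (algebraMap C _ d) ≤ 1 :=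
  (pv_le hr hc _).2 (od_const hr hc d).ge

theorem ex_nz (hR : 0 < R) (hs : s ∈ MM C R) :
    ∃ r, 0 < r ∧ r ≤ R ∧ ∀ a : C, a ≠ 0 → ‖a‖ ≤ r → od R a s = 0 := by
  have h := ((od_finite hR hs).subset (Set.diff_subset (t := {0}))).isClosed.isOpen_compl.mem_nhds
    (x := 0) (by simp)
  obtain ⟨ε, e0, e⟩ := Metric.nhds_basis_closedBall.mem_iff.1 h
  refine ⟨min ε R, lt_min e0 hR, min_le_right _ _, fun a a0 ha => by_contra fun k => ?_⟩
  exact e (mem_closedBall_zero_iff.2 (ha.trans (min_le_left _ _)))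
    ⟨⟨ha.trans (min_le_right _ _), k⟩, a0⟩

theorem ex_cv (hR : 0 < R) (hs : am C f ∈ MM C R) : ∃ r, 0 < r ∧ r ≤ R ∧ Cv r f := by
  obtain ⟨r, r0, h, k⟩ := ex_nz hR hs
  obtain ⟨g, hg, e⟩ := hol r0 (MM_anti r0 h hs) fun a ha => by
    by_cases a0 : a = 0
    · rw [a0, od_at_zero (MM_anti r0 h hs)]; exact order_am_nonneg f
    · rw [od_rad r0 ha h hs, k a a0 ha]
  exact ⟨r, r0, h, am_inj e ▸ hg⟩

theorem vq_va (hR : 0 < R) (hc : ‖c‖ ≤ R) (hs : s ∈ MM C R) (o : 0 ≤ od R c s) :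
    Vq c s (va R c s) := by
  obtain ⟨d, h, -⟩ := vq_of_od hR hc hs o
  obtain ⟨r, a, b, r0, hr, ha, hb, b0, e, k⟩ := id h
  have m0 := lt_min r0 hR
  have m1 := le_min hr hc
  replace ha := ha.mono m0 (min_le_left _ _)
  replace hb := hb.mono m0 (min_le_left _ _)
  rw [← od_rad m0 m1 (min_le_right _ _) hs] at o
  have := va_mul m0 m1 (MM_anti m0 (min_le_right _ _) hs) hb.mem o (od_am_nonneg m0 m1 hb)
  rw [e, va_am m0 m1 ha, va_am m0 m1 hb, k, va_rad m0 m1 (min_le_right _ _) hs] at this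
  exact mul_right_cancel₀ b0 this ▸ h

/-- classical decidable equality -/
@[reducible] def dq : DecidableEq (MM C r) := fun a b => Classical.propDecidable (a = b)

attribute [local instance 2000] dq

variable {E : WeierstrassCurve C}

theorem cf_pv (hr : 0 < r) (hc : ‖c‖ ≤ r) :
    CoeffIn (E.map (algebraMap C (MM C r))) {z | pvl hr hc z ≤ 1} :=
  ⟨pv_const hr hc _, pv_const hr hc _, pv_const hr hc _, pv_const hr hc _, pv_const hr hc _⟩

theorem pv_D (hD : E.Δ ≠ 0) (hr : 0 < r) (hc : ‖c‖ ≤ r) :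
    pvl hr hc (E.map (algebraMap C (MM C r))).Δ = 1 := by
  rw [map_Δ]
  exact (pv_const hr hc _).eq_of_not_lt fun l =>
    hD ((va_const hr hc _).symm.trans (((rd hr hc E).zero _ l.le).2 l))

/-- the value of a family of points -/
def at' (hD : E.Δ ≠ 0) (hr : 0 < r) (hc : ‖c‖ ≤ r) :
    (E.map (algebraMap C (MM C r))).toAffine.Point →+ E.toAffine.Point :=
  AddMonoidHom.mk' (ptRed {z | pvl hr hc z ≤ 1} (fun s => va r c s) E) (by
    have h := rd hr hc E
    exact ((ptRed_holds _ _ _ _ (cf_pv hr hc) (pv_D hD hr hc)).2.1 C _ E h.one h.add h.mul h.zero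
      h.a₁ h.a₂ h.a₃ h.a₄ h.a₆).2.2)

theorem at_some (hD : E.Δ ≠ 0) (hr : 0 < r) (hc : ‖c‖ ≤ r) {x y : MM C r}
    (k : (E.map (algebraMap C (MM C r))).toAffine.Nonsingular x y) (hx : 0 ≤ od r c x) :
    0 ≤ od r c y ∧ ∃ n, at' hD hr hc (.some x y k) = .some (va r c x) (va r c y) n := by
  have h := rd hr hc E
  obtain ⟨h1, h2, -⟩ := ptRed_holds _ _ _ _ (cf_pv (E := E) hr hc) (pv_D hD hr hc)
  have x1 := (pv_le hr hc x).2 hx
  exact ⟨(pv_le hr hc y).1 (h1 x y k.1 x1), (h2 C _ E h.one h.add h.mul h.zero h.a₁ h.a₂ h.a₃ h.a₄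
    h.a₆).2.1 x y k.1 x1, (if_pos x1).trans (pt_of _)⟩

theorem at_pole (hD : E.Δ ≠ 0) (hr : 0 < r) (hc : ‖c‖ ≤ r) {x y : MM C r}
    (k : (E.map (algebraMap C (MM C r))).toAffine.Nonsingular x y) (hx : od r c x < 0) :
    at' hD hr hc (.some x y k) = 0 :=
  if_neg fun e => hx.not_ge ((pv_le hr hc x).1 e)

variable (hc : CoeffIn E {z | Lc.nv C z ≤ 1}) (hD : E.Δ ≠ 0)
include hc

theorem cf_gv (hr : 0 < r) : CoeffIn (E.map (algebraMap C (MM C r))) {z | gv C hr z ≤ 1} := by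
  have : ∀ d, Lc.nv C d ≤ 1 → gv C hr (algebraMap C _ d) ≤ 1 := fun d h =>
    (nm_const hr d).trans_le h
  exact ⟨this _ hc.1, this _ hc.2.1, this _ hc.2.2.1, this _ hc.2.2.2.1, this _ hc.2.2.2.2⟩

theorem ex_zf (hr : 0 < r) (P : (E.map (algebraMap C (MM C r))).toAffine.Point)
    (k : ∀ q (hq : ‖q‖ ≤ r), KerV (Lc.nv C) (at' hD hr hq P)) :
    ∃ f, Cv r f ∧ (zf P : MM C r) = am C f ∧ ∀ q (hq : ‖q‖ ≤ r), ev q f = zf (at' hD hr hq P) := by
  have h := fun q (hq : ‖q‖ ≤ r) => red_zf (cf_pv hr hq) (rd hr hq E) (pv_D hD hr hq) P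
    fun x y n e => by
      have := k q hq
      rw [show at' hD hr hq P = _ from e] at this
      exact (bas hc n.1 (not_le.1 this)).2.1
  obtain ⟨f, hf, e⟩ := hol hr (zf P).2 fun q hq => (pv_le hr hq _).1 (h q hq).1
  exact ⟨f, hf, e, fun q hq => by rw [← va_am hr hq hf, ← e]; exact (h q hq).2⟩

variable [CharZero C] {p : ℕ} (hp : p.Prime) (p1 : ‖(p : C)‖ < 1) {lg : E.toAffine.Point →+ C}
  (hl : Lg p E lg)
include hp p1 hl

theorem log0 (hr : 0 < r) {P : (E.map (algebraMap C (MM C r))).toAffine.Point}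
    {lam : (E.map (algebraMap C (MM C r))).toAffine.Point →+ MM C r}
    (hlam : ∀ Q, KerV (gv C hr) Q → gv C hr (dM C hr (zf Q) - lam Q) ≤ gv C hr (lam Q) * gv C hr (zf Q))
    (k : KerV (gv C hr) P) (m : gv C hr (zf P) < gv C hr p) (hg : Cv r g) (e : lam P = am C g)
    (kq : ∀ q (hq : ‖q‖ ≤ r), KerV (Lc.nv C) (at' hD hr hq P))
    (k0 : at' hD hr (norm_zero.trans_le hr.le) P = 0) (hρ : 0 < ρ) (h : ρ < ‖(p : C)‖ * r) :
    Cv ρ (itg g) ∧ ∀ q (hq : ‖q‖ ≤ r), ‖zf (at' hD hr hq P)‖ < ‖(p : C)‖ ∧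
      (‖q‖ ≤ ρ → lg (at' hD hr hq P) = ev q (itg g)) := by
  have p0 : (p : C) ≠ 0 := Nat.cast_ne_zero.2 hp.ne_zero
  have pp : (gv C hr p : ℝ) = ‖(p : C)‖ := by simpa [gv_coe] using nm_const hr (p : C)
  have ρr : ρ ≤ r := h.le.trans (mul_le_of_le_one_left hr.le p1.le)
  have ig : ∀ {w : C⟦X⟧} {M : ℝ}, Cv r w → gn r w ≤ M →
      Cv ρ (itg w) ∧ gn ρ (itg w) ≤ M * r := fun {w M} hw hM => by
    have := itg_le hp p1 hr (mul_nonneg ((gn_nonneg hr w).trans hM) hr.le) (w := w) fun n => by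
      rw [pow_succ, ← mul_assoc]
      exact mul_le_mul_of_nonneg_right ((le_gn hw n).trans hM) hr.le
    exact ⟨Cv.of_bdd hρ h this, gn_le fun n => le_trans (by gcongr) (this n)⟩
  choose f f1 f2 f3 using fun n : ℕ => ex_zf hc hD hr (p ^ n • P) fun q hq => by
    rw [map_nsmul]; exact (E1 hc).nsmul_mem (kq q hq) _
  have c1 := (ig hg le_rfl).1
  refine ⟨c1, fun q hq => ?_⟩
  have z1 : ‖zf (at' hD hr hq P)‖ < ‖(p : C)‖ := by
    have a := f3 0 q hq
    have b := f2 0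
    rw [pow_zero, one_smul] at a b
    rw [← a, ← pp]
    refine (norm_ev_le hr hq (f1 0)).trans_lt ?_
    rw [← nm_am hr (f1 0), ← b]
    exact m
  refine ⟨z1, fun hq' => tendsto_nhds_unique (hl.tendsto hc p1 (kq q hq) z1) ?_⟩
  rw [tendsto_iff_norm_sub_tendsto_zero]
  refine squeeze_zero (fun _ => norm_nonneg _) (fun n => ?_)
    (by simpa only [zero_mul] using ((tendsto_pow_atTop_nhds_zero_of_lt_one (norm_nonneg (p : C))
      p1).mul_const (gn r g)).mul_const r)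
  have pn : (p : C) ^ n ≠ 0 := pow_ne_zero n p0
  have w1 : Cv r (((p : C) ^ n)⁻¹ • d⁄dX C (f n) - g) := (((f1 n).deriv hr).smul _).sub hg
  have w2 : itg (((p : C) ^ n)⁻¹ • d⁄dX C (f n) - g) = ((p : C) ^ n)⁻¹ • f n - itg g := by
    have := f3 n 0 (norm_zero.trans_le hr.le)
    rw [map_nsmul, k0, nsmul_zero, ev_zero_left, zf_zero] at this
    exact derivative.ext (by rw [d_itg, map_sub, d_itg, Derivation.map_smul]) (by
      rw [cc_itg, map_sub, cc_itg, smul_eq_C_mul, map_mul, show constantCoeff (f n) = 0 from this]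
      simp)
  have w3 : gn r (((p : C) ^ n)⁻¹ • d⁄dX C (f n) - g) ≤ ‖(p : C)‖ ^ n * gn r g := by
    have a : nm r (dL (zf (p ^ n • P) : MM C r) - (lam (p ^ n • P) : C⸨X⸩)) ≤
        nm r (lam (p ^ n • P) : C⸨X⸩) * gv C hr (zf (p ^ n • P)) :=
      hlam _ ((E1 (cf_gv hc hr)).nsmul_mem k (p ^ n))
    have b : (gv C hr (zf (p ^ n • P)) : ℝ) ≤ ‖(p : C)‖ ^ n := by
      rw [← pp]
      exact_mod_cast (v_pow (cf_gv hc hr) k m n).trans
        (mul_le_of_le_one_right' (zf_lt (cf_gv hc hr) k).le)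
    have d : (lam (p ^ n • P) : C⸨X⸩) = am C ((p : C) ^ n • g) := by
      rw [map_nsmul, am_smul, ← e, nsmul_eq_mul]
      simp
    rw [d, f2, dL_am, ← map_sub, nm_am hr (((f1 n).deriv hr).sub (hg.smul _)),
      nm_am hr (hg.smul _), gn_smul hr, norm_pow] at a
    rw [show ((p : C) ^ n)⁻¹ • d⁄dX C (f n) - g = ((p : C) ^ n)⁻¹ • (d⁄dX C (f n) - (p : C) ^ n • g)
      by rw [smul_sub, inv_smul_smul₀ pn], gn_smul hr, norm_inv, norm_pow,
      inv_mul_le_iff₀ (pow_pos (norm_pos_iff.2 p0) n)]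
    have := gn_nonneg hr g
    refine a.trans ((mul_le_mul_of_nonneg_left b (by positivity)).trans_eq (by ring))
  obtain ⟨u1, u2⟩ := ig w1 w3
  have := (norm_ev_le hρ hq' u1).trans u2
  rwa [w2, ev_sub hq' (((f1 n).mono hρ ρr).smul _) c1, ev_smul hq' ((f1 n).mono hρ ρr), f3 n q hq,
    map_nsmul, smul_eq_mul, ← div_eq_inv_mul] at this

include hD in
theorem log1 {x y : C⸨X⸩} (hR : 0 < R) (hx : x ∈ MM C R) (hy : y ∈ MM C R)
    (he : (E.map (algebraMap C C⸨X⸩)).toAffine.Equation x y) (ho : x.order < 0)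
    (hg : dL x = am C g * psi (E.map (algebraMap C C⸨X⸩)) x y) :
    ∃ ρ, 0 < ρ ∧ ρ ≤ R ∧ Cv ρ (itg g) ∧ ∀ q : C, q ≠ 0 → ‖q‖ ≤ ρ → od R q x = 0 ∧ 0 ≤ od R q y ∧
      ∃ n : E.toAffine.Nonsingular (va R q x) (va R q y), 1 < ‖va R q x‖ ∧
        ‖va R q x / va R q y‖ < ‖(p : C)‖ ∧ lg (.some _ _ n) = ev q (itg g) := by
  have p0 : 0 < ‖(p : C)‖ := norm_pos_iff.2 (Nat.cast_ne_zero.2 hp.ne_zero)
  have x0 : x ≠ 0 := fun e => by simp [e] at ho
  obtain ⟨u, hu⟩ := exists_am (x := x⁻¹) (by rw [order_inv]; omega)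
  have u0 : constantCoeff u = 0 := by_contra fun e => by
    have := order_am_eq_zero e
    rw [← hu, order_inv] at this
    omega
  have s0 : psi (E.map (algebraMap C C⸨X⸩)) x y ≠ 0 := fun e => dL_ne ho (by rw [hg, e, mul_zero])
  have g1 : am C g ∈ MM C R := by
    rw [eq_div_of_mul_eq s0 hg.symm]
    exact div_mem (dL_mem hR hx) (add_mem (add_mem (mul_mem (ofNat_mem _ 2) hy)
      (mul_mem (IntermediateField.algebraMap_mem _ _) hx)) (IntermediateField.algebraMap_mem _ _))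
  obtain ⟨r1, a1, a2, a3⟩ := ex_nz hR hx
  obtain ⟨r2, b1, -, b3⟩ := ex_cv hR (hu ▸ inv_mem hx : am C u ∈ MM C R)
  obtain ⟨r3, d1, -, d3⟩ := ex_cv hR g1
  have b4 := gn_nonneg b1 u
  obtain ⟨r, hr, e1, e2, e3, e4⟩ : ∃ r, 0 < r ∧ r ≤ r1 ∧ r ≤ r2 ∧ r ≤ r3 ∧
      r ≤ r2 * ‖(p : C)‖ ^ 2 / (gn r2 u + 1) :=
    ⟨min (min r1 r2) (min r3 _), by positivity, (min_le_left _ _).trans (min_le_left _ _),
      (min_le_left _ _).trans (min_le_right _ _), (min_le_right _ _).trans (min_le_left _ _),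
      (min_le_right _ _).trans (min_le_right _ _)⟩
  have rR := e1.trans a2
  have cu := b3.mono hr e2
  have u1 : gn r u < ‖(p : C)‖ ^ 2 := (gn_small b3 u0 hr e2).trans_lt (by
    rw [le_div_iff₀ (by positivity)] at e4
    rw [div_mul_eq_mul_div, div_lt_iff₀ b1]
    nlinarith)
  have u2 : gn r u < 1 := u1.trans (pow_lt_one₀ p0.le p1 two_ne_zero)
  lift x to MM C r using MM_anti hr rR hx
  lift y to MM C r using MM_anti hr rR hy
  have D : (E.map (algebraMap C (MM C r))).Δ ≠ 0 := by rw [map_Δ]; exact (map_ne_zero _).2 hD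
  have n : (E.map (algebraMap C (MM C r))).toAffine.Nonsingular x y := nonsing_of_Δ D (by
    rw [equation_iff] at he ⊢
    exact Subtype.ext he)
  obtain ⟨lam, hlam⟩ := lambda_holds _ _ ((dM C hr).restrictScalars ℤ) D
    ⟨(dM C hr).map_algebraMap _, (dM C hr).map_algebraMap _, (dM C hr).map_algebraMap _,
      (dM C hr).map_algebraMap _, (dM C hr).map_algebraMap _⟩
  have xi : ((gv C hr x)⁻¹ : ℝ≥0) = gn r u := by
    rw [← map_inv₀, gv_coe, ← nm_am hr cu, ← hu]; rfl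
  have x1 : 0 < gv C hr x := zero_lt_iff.2 ((map_ne_zero _).2 fun e => x0 (by simp [e]))
  have x2 : 1 < gv C hr x := (inv_lt_one₀ x1).1 (by rw [← NNReal.coe_lt_coe, xi]; exact u2)
  have vq : ∀ (q : C) (hq : ‖q‖ ≤ r), 0 ≤ od r q (x : C⸨X⸩) → 1 < ‖va r q (x : C⸨X⸩)‖ := fun q hq o => by
    have := va_mul hr hq x.2 cu.mem o (od_am_nonneg hr hq cu)
    rw [← hu, mul_inv_cancel₀ x0, ← map_one (algebraMap C C⸨X⸩), va_const hr hq, hu,
      va_am hr hq cu] at this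
    have l := (norm_ev_le hr hq cu).trans_lt u2
    refine not_le.1 fun k => ?_
    have := congrArg norm this
    rw [norm_one, norm_mul] at this
    exact (mul_lt_one_of_nonneg_of_lt_one_right k (norm_nonneg _) l).ne' this
  have h := log0 hc hD hp p1 hl hr (P := .some x y n) (lam := lam) (g := g) (ρ := ‖(p : C)‖ * r / 2)
    (by
      rintro (_ | ⟨a, b, k⟩) m
      · exact (by simp [zf_zero] : gv C hr (dM C hr (zf 0) - lam 0) ≤ _)
      · have := hlam a b k.1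
        rw [pt_of k] at this
        exact dz (cf_gv hc hr) ((dM C hr).restrictScalars ℤ) k.1 (not_le.1 m) this.1 this.2)
    x2.not_ge
    (by
      have := (bas (cf_gv hc hr) n.1 x2).2.2.1
      rw [← NNReal.coe_lt_coe, show (gv C hr p : ℝ) = ‖(p : C)‖ by
        simpa [gv_coe] using nm_const hr (p : C)]
      refine lt_of_pow_lt_pow_left₀ 2 p0.le (lt_of_eq_of_lt ?_ u1)
      rw [← xi, ← eq_inv_of_mul_eq_one_right this]
      rfl)
    (d3.mono hr e3)
    (by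
      have := congrArg Subtype.val (hlam x y n.1).1
      rw [pt_of n] at this
      exact mul_right_cancel₀ s0 (this.symm.trans hg))
    (fun q hq => by
      rcases le_or_gt 0 (od r q (x : C⸨X⸩)) with o | o
      · obtain ⟨-, k, e⟩ := at_some hD hr hq n o
        rw [e]
        exact (vq q hq o).not_ge
      · rw [at_pole hD hr hq n o]; trivial)
    (at_pole hD hr _ n (by rwa [od_at_zero x.2])) (by positivity) (half_lt_self (by positivity))
  have ρr : ‖(p : C)‖ * r / 2 ≤ r :=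
    (half_le_self (by positivity)).trans (mul_le_of_le_one_left hr.le p1.le)
  refine ⟨_, by positivity, ρr.trans rR, h.1, fun q q0 hq => ?_⟩
  have hq' := hq.trans ρr
  have o := a3 q q0 (hq'.trans e1)
  refine ⟨o, ?_⟩
  rw [← od_rad hr hq' rR hx] at o
  rw [← od_rad hr hq' rR hy, ← va_rad hr hq' rR hx, ← va_rad hr hq' rR hy]
  obtain ⟨k1, k2, e⟩ := at_some hD hr hq' n o.ge
  obtain ⟨k3, k4⟩ := h.2 q hq'
  rw [e] at k3 k4
  exact ⟨k1, k2, vq q hq' o.ge, by rw [← norm_neg, ← neg_div]; exact k3, k4 hq⟩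

include hD in
/-- **the logarithm of a family of points through the origin** -/
theorem log {x y : C⸨X⸩} (hx : Mq 0 x) (hy : Mq 0 y)
    (he : (E.map (algebraMap C C⸨X⸩)).toAffine.Equation x y) (ho : x.order < 0)
    (hg : dL x = am C g * psi (E.map (algebraMap C C⸨X⸩)) x y) :
    ∃ ρ, 0 < ρ ∧ Cv ρ (itg g) ∧ ∀ q : C, q ≠ 0 → ‖q‖ ≤ ρ →
      ∃ (a b : C) (n : E.toAffine.Nonsingular a b), Vq q x a ∧ Vq q y b ∧ 1 < ‖a‖ ∧
        ‖a / b‖ < ‖(p : C)‖ ∧ lg (.some a b n) = ev q (itg g) := by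
  obtain ⟨R, hR, -, h1, h2⟩ := hx.two hy
  obtain ⟨ρ, a, b, c, d⟩ := log1 hc hD hp p1 hl hR h1 h2 he ho hg
  refine ⟨ρ, a, c, fun q q0 hq => ?_⟩
  obtain ⟨k1, k2, n, k⟩ := d q q0 hq
  exact ⟨_, _, n, vq_va hR (hq.trans b) h1 k1.ge, vq_va hR (hq.trans b) h2 k2, k⟩

end Vale.Agent.P014T.Dc
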